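import Vale.Agent.P262.Dens2

/-! Packages of constraints, chaining and epochs. -/

namespace Vale.Agent.P262

open Finset

variable {N : ℕ}

noncomputable def cost (a : Fin N → ℝ) (c : Con N) : ℝ := hw a c.1 * hw 1 c.1 / c.2 ^ 4

lemma hw_nn {w : Fin N → ℝ} (hw0 : ∀ i, 0 ≤ w i) (B : H N →L[ℝ] H N) : 0 ≤ hw w B :=
  sum_nonneg fun i _ => mul_nonneg (hw0 i) (sq_nonneg _)

lemma cost_nn {a : Fin N → ℝ} (ha : ∀ i, 0 ≤ a i) (c : Con N) : 0 ≤ cost a c :=
  div_nonneg (mul_nonneg (hw_nn ha _) (hw_nn (fun _ => zero_le_one) _)) (by positivity)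

def Pack (a : Fin N → ℝ) (κ : ℝ) (P : H N → Prop) : Prop :=
  ∃ S : Finset (Con N), (∀ c ∈ S, 0 < c.2 ∧ 8 * hw 1 c.1 ≤ c.2 ^ 2) ∧ ∑ c ∈ S, cost a c ≤ κ ∧
    ∀ g, (∀ c ∈ S, ‖c.1 g‖ ≤ c.2) → P g

variable {a : Fin N → ℝ}

lemma Pack.mono {κ κ' : ℝ} {P Q : H N → Prop} (h : Pack a κ P) (hκ : κ ≤ κ')
    (hPQ : ∀ g, P g → Q g) : Pack a κ' Q := by
  obtain ⟨S, h1, h2, h3⟩ := h
  exact ⟨S, h1, h2.trans hκ, fun g hg => hPQ g (h3 g hg)⟩

lemma Pack.triv : Pack a 0 (fun _ => True) := ⟨∅, by simp, by simp, by simp⟩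

lemma Pack.single (B : H N →L[ℝ] H N) {r : ℝ} (hr : 0 < r) (h8 : 8 * hw 1 B ≤ r ^ 2) :
    Pack a (cost a (B, r)) (fun g => ‖B g‖ ≤ r) :=
  ⟨{(B, r)}, by simpa using ⟨hr, h8⟩, by simp, fun g hg => by simpa using hg⟩

lemma Pack.and (ha : ∀ i, 0 ≤ a i) {κ κ' : ℝ} {P Q : H N → Prop} (h : Pack a κ P)
    (h' : Pack a κ' Q) : Pack a (κ + κ') (fun g => P g ∧ Q g) := by
  classical
  obtain ⟨S, h1, h2, h3⟩ := h
  obtain ⟨S', h1', h2', h3'⟩ := h'
  refine ⟨S ∪ S', fun c hc => (mem_union.1 hc).elim (h1 c) (h1' c), ?_, fun g hg =>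
    ⟨h3 g fun c hc => hg c (mem_union_left _ hc), h3' g fun c hc => hg c (mem_union_right _ hc)⟩⟩
  have := sum_union_inter (s₁ := S) (s₂ := S') (f := cost a)
  have h0 : 0 ≤ ∑ c ∈ S ∩ S', cost a c := sum_nonneg fun c _ => cost_nn ha c
  linarith

lemma Pack.all (ha : ∀ i, 0 ≤ a i) {ι : Type*} (T : Finset ι) {κ : ι → ℝ}
    {P : ι → H N → Prop} (h : ∀ k ∈ T, Pack a (κ k) (P k)) :
    Pack a (∑ k ∈ T, κ k) (fun g => ∀ k ∈ T, P k g) := by
  classical
  induction T using Finset.induction_on with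
  | empty => exact Pack.triv.mono (by simp) (by simp)
  | insert k T hk ih =>
    rw [sum_insert hk]
    refine ((h k (mem_insert_self _ _)).and ha
      (ih fun j hj => h j (mem_insert_of_mem hj))).mono le_rfl ?_
    rintro g ⟨g1, g2⟩ j hj
    rcases mem_insert.1 hj with rfl | hj
    · exact g1
    · exact g2 j hj

/-- a level: weights `w` dominating `1` and `a / lam` -/
structure Lev (a w : Fin N → ℝ) (lam : ℝ) : Prop where
  a0 : ∀ i, 0 ≤ a i
  l0 : 0 ≤ lam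
  one : ∀ i, 1 ≤ w i
  le : ∀ i, a i ≤ lam * w i

variable {w : Fin N → ℝ} {lam : ℝ}

lemma Lev.hw_one (L : Lev a w lam) (B : H N →L[ℝ] H N) : hw 1 B ≤ hw w B :=
  sum_le_sum fun i _ => mul_le_mul_of_nonneg_right (L.one i) (sq_nonneg _)

lemma Lev.hw_a (L : Lev a w lam) (B : H N →L[ℝ] H N) : hw a B ≤ lam * hw w B := by
  unfold hw
  rw [mul_sum]
  refine sum_le_sum fun i _ => ?_
  rw [← mul_assoc]
  exact mul_le_mul_of_nonneg_right (L.le i) (sq_nonneg _)

lemma Lev.w0 (L : Lev a w lam) (i : Fin N) : 0 ≤ w i := zero_le_one.trans (L.one i)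

lemma Lev.single (L : Lev a w lam) (B : H N →L[ℝ] H N) {r x y : ℝ} (hr : 0 < r)
    (hx : hw w B ≤ x) (hy : hw w B ≤ y) (h8 : 8 * x ≤ r ^ 2) :
    Pack a (lam * (x * y / r ^ 4)) (fun g => ‖B g‖ ≤ r) := by
  refine (Pack.single B hr (by linarith [L.hw_one B])).mono ?_ fun _ h => h
  unfold cost
  have h0 := hw_nn L.w0 B
  have h1 := hw_nn (fun _ => zero_le_one : ∀ i, (0 : ℝ) ≤ (1 : Fin N → ℝ) i) B
  have := L.l0
  rw [← mul_div_assoc, ← mul_assoc]
  refine div_le_div_of_nonneg_right ?_ (by positivity)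
  refine mul_le_mul ((L.hw_a B).trans (by gcongr)) ((L.hw_one B).trans hy) h1 ?_
  exact mul_nonneg this (h0.trans hx)

lemma chain (L : Lev a w lam) (B : ℕ → H N →L[ℝ] H N) (c : ℕ → ℝ) (hc : Monotone c)
    (hB : ∀ s t, s ≤ t → hw w (B t - B s) ≤ 3 * (c t - c s)) :
    ∀ n s : ℕ, ∀ V r : ℝ, 0 < r → c (s + n) - c s ≤ V → 24 * V ≤ r ^ 2 →
      Pack a (lam * (45 * V * (c (s + n) - c s) / r ^ 4))
        (fun g => ∀ t, s ≤ t → t ≤ s + n → ‖B t g - B s g‖ ≤ 10 * r) := by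
  intro n
  induction n using Nat.strong_induction_on with
  | _ n ih =>
  intro s V r hr hV h24
  rcases Nat.eq_zero_or_pos n with rfl | hn
  · refine Pack.triv.mono (by simp) fun g _ t h1 h2 => ?_
    obtain rfl : t = s := by omega
    simp; positivity
  classical
  have V0 : 0 ≤ V := le_trans (sub_nonneg.2 (hc (by omega))) hV
  set j := Nat.findGreatest (fun j => c (s + j) - c s ≤ V / 2) (n - 1) with hj
  have j1 : j ≤ n - 1 := Nat.findGreatest_le _
  have j2 : c (s + j) - c s ≤ V / 2 :=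
    Nat.findGreatest_spec (P := fun j => c (s + j) - c s ≤ V / 2) (Nat.zero_le _)
      (by simp; linarith)
  have e1 : s + j + 1 + (n - j - 1) = s + n := by omega
  have j3 : c (s + j + 1 + (n - j - 1)) - c (s + j + 1) ≤ V / 2 := by
    rw [e1]
    rcases eq_or_lt_of_le j1 with h | h
    · rw [show s + j + 1 = s + n by omega]; linarith
    · have := Nat.findGreatest_is_greatest (P := fun j => c (s + j) - c s ≤ V / 2)
        (n := n - 1) (k := j + 1) (by omega) (by omega)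
      rw [← add_assoc] at this
      linarith [not_le.1 this]
  have m1 : c (s + j) ≤ c (s + j + 1) := hc (by omega)
  have m2 : c (s + j + 1) ≤ c (s + n) := hc (by omega)
  have m0 : c s ≤ c (s + j) := hc (by omega)
  have PL := ih j (by omega) s (V / 2) (9 / 10 * r) (by positivity) j2 (by nlinarith)
  have PR := ih (n - j - 1) (by omega) (s + j + 1) (V / 2) (9 / 10 * r) (by positivity) j3
    (by nlinarith)
  have hn' := hB s (s + j + 1) (by omega)
  have PN := L.single (B (s + j + 1) - B s) hr (x := 3 * V) (y := 3 * (c (s + n) - c s))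
    (by linarith) (by linarith) (by linarith)
  rw [e1] at PR
  refine ((PL.and L.a0 PR).and L.a0 PN).mono ?_ ?_
  · rw [← mul_add, ← mul_add]
    refine mul_le_mul_of_nonneg_left ?_ L.l0
    rw [← add_div, div_add_div _ _ (by positivity) (by positivity),
      div_le_div_iff₀ (by positivity) (by positivity)]
    have r4 : 0 < r ^ 4 := by positivity
    have k1 : (c (s + j) - c s) + (c (s + n) - c (s + j + 1)) ≤ c (s + n) - c s := by linarith
    have k2 : V * ((c (s + j) - c s) + (c (s + n) - c (s + j + 1))) * (r ^ 4 * r ^ 4)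
        ≤ V * (c (s + n) - c s) * (r ^ 4 * r ^ 4) := by gcongr
    have k3 : 0 ≤ V * (c (s + n) - c s) * (r ^ 4 * r ^ 4) :=
      mul_nonneg (mul_nonneg V0 (by linarith)) (by positivity)
    nlinarith
  · rintro g ⟨⟨g1, g2⟩, g3⟩ t h1 h2
    rcases le_or_gt t (s + j) with h | h
    · linarith [g1 t h1 h]
    · have := g2 t (by omega) h2
      calc ‖B t g - B s g‖ = ‖(B t g - B (s + j + 1) g) + (B (s + j + 1) - B s) g‖ := by
            congr 1; simp
        _ ≤ ‖B t g - B (s + j + 1) g‖ + ‖(B (s + j + 1) - B s) g‖ := norm_add_le _ _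
        _ ≤ 10 * r := by linarith

lemma hw_le_two (hw0 : ∀ i, 0 ≤ w i) (B C : H N →L[ℝ] H N) :
    hw w B ≤ 2 * hw w C + 2 * hw w (C - B) := by
  unfold hw
  rw [mul_sum, mul_sum, ← sum_add_distrib]
  refine sum_le_sum fun i _ => ?_
  have h1 : ‖B (e i)‖ ≤ ‖C (e i)‖ + ‖(C - B) (e i)‖ := by
    have := norm_sub_le (C (e i)) ((C - B) (e i))
    simpa using this
  have h2 : ‖B (e i)‖ ^ 2 ≤ (‖C (e i)‖ + ‖(C - B) (e i)‖) ^ 2 := by gcongr
  have h3 : ‖B (e i)‖ ^ 2 ≤ 2 * ‖C (e i)‖ ^ 2 + 2 * ‖(C - B) (e i)‖ ^ 2 := by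
    nlinarith [sq_nonneg (‖C (e i)‖ - ‖(C - B) (e i)‖)]
  nlinarith [mul_le_mul_of_nonneg_left h3 (hw0 i)]

lemma epochs (L : Lev a w lam) (B : ℕ → H N →L[ℝ] H N) (c : ℕ → ℝ) (hc : Monotone c)
    (hB : ∀ s t, s ≤ t → hw w (B t - B s) ≤ 3 * (c t - c s)) :
    ∀ n s : ℕ, Pack a (lam * (c (s + n) - c s))
        (fun g => ‖B s g‖ ^ 2 ≤ 8 * (1 + hw w (B s)) →
          ∀ t, s ≤ t → t ≤ s + n → ‖B t g‖ ^ 2 ≤ 5200 * (1 + hw w (B t))) := by
  intro n
  induction n using Nat.strong_induction_on with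
  | _ n ih =>
  intro s
  classical
  set j := Nat.findGreatest (fun j => c (s + j) - c s ≤ 1) n with hj
  have j1 : j ≤ n := Nat.findGreatest_le _
  have j2 : c (s + j) - c s ≤ 1 :=
    Nat.findGreatest_spec (P := fun j => c (s + j) - c s ≤ 1) (Nat.zero_le _) (by simp)
  have m0 : c s ≤ c (s + j) := hc (by omega)
  have PC := chain L B c hc hB j s 1 5 (by norm_num) j2 (by norm_num)
  have fin : ∀ g, (∀ t, s ≤ t → t ≤ s + j → ‖B t g - B s g‖ ≤ 10 * 5) →
      ‖B s g‖ ^ 2 ≤ 8 * (1 + hw w (B s)) →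
      ∀ t, s ≤ t → t ≤ s + j → ‖B t g‖ ^ 2 ≤ 5200 * (1 + hw w (B t)) := by
    intro g g1 g2 t h1 h2
    have k1 := g1 t h1 h2
    have k2 := hw_le_two L.w0 (B s) (B t)
    have k3 := hB s t h1
    have k4 : c t ≤ c (s + j) := hc h2
    have k5 : ‖B t g‖ ≤ ‖B s g‖ + 50 := by
      have := norm_add_le (B s g) (B t g - B s g)
      rw [add_sub_cancel] at this
      linarith
    have k6 : ‖B t g‖ ^ 2 ≤ (‖B s g‖ + 50) ^ 2 := by gcongr
    have k7 := hw_nn L.w0 (B t)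
    nlinarith [sq_nonneg (‖B s g‖ - 50)]
  rcases eq_or_lt_of_le j1 with h | h
  · rw [← h]
    refine PC.mono (mul_le_mul_of_nonneg_left (by linarith) L.l0) fin
  · have j3 := Nat.findGreatest_is_greatest (P := fun j => c (s + j) - c s ≤ 1)
      (n := n) (k := j + 1) (by omega) (by omega)
    rw [← add_assoc, not_le] at j3
    have PR := ih (n - j - 1) (by omega) (s + j + 1)
    have e1 : s + j + 1 + (n - j - 1) = s + n := by omega
    rw [e1] at PR
    have k7 := hw_nn L.w0 (B (s + j + 1))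
    set x := 1 + hw w (B (s + j + 1)) with hx
    have x0 : 0 < 8 * x := by positivity
    have PS := L.single (B (s + j + 1)) (r := √(8 * x)) (x := x) (y := x) (Real.sqrt_pos.2 x0)
      (by linarith) (by linarith) (by rw [Real.sq_sqrt x0.le])
    have e2 : x * x / √(8 * x) ^ 4 = 1 / 64 := by
      rw [show √(8 * x) ^ 4 = (√(8 * x) ^ 2) ^ 2 by ring, Real.sq_sqrt x0.le]
      have : x ≠ 0 := by positivity
      field_simp; norm_num
    rw [e2] at PS
    refine ((PC.and L.a0 PR).and L.a0 PS).mono ?_ ?_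
    · rw [← mul_add, ← mul_add]
      refine mul_le_mul_of_nonneg_left ?_ L.l0
      linarith
    · rintro g ⟨⟨g1, g2⟩, g3⟩ g4 t h1 h2
      rcases le_or_gt t (s + j) with h | h
      · exact fin g g1 g4 t h1 h
      · refine g2 ?_ t (by omega) h2
        rw [← Real.sq_sqrt x0.le]
        gcongr

end Vale.Agent.P262
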