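import Mathlib

namespace Vale.Agent.P262

open scoped ENNReal

/-- The largest Euclidean norm of an initial sum `w 0 + ⋯ + w (k - 1)`, `0 ≤ k ≤ N`. -/
noncomputable def peak {d N : ℕ} (w : Fin N → EuclideanSpace ℝ (Fin d)) : ℝ≥0∞ :=
  ⨆ k : Fin (N + 1), ‖∑ i : Fin N with i.val < k.val, w i‖ₑ

/-- `σ(d, N)`: worst case over `N` vectors of the unit ball of the best signing. -/
noncomputable def sigmaN (d N : ℕ) : ℝ≥0∞ :=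
  ⨆ (v : Fin N → EuclideanSpace ℝ (Fin d)) (_ : ∀ i, ‖v i‖ ≤ 1),
    ⨅ (ε : Fin N → ℝ) (_ : ∀ i, ε i = 1 ∨ ε i = -1), peak fun i => ε i • v i

/-- `σ(d) = sup_{N ≥ 1} σ(d, N)`. -/
noncomputable def sigma (d : ℕ) : ℝ≥0∞ := ⨆ (N : ℕ) (_ : 1 ≤ N), sigmaN d N

/-- The Euclidean Steinitz constant `S₂(d)`. -/
noncomputable def steinitz (d : ℕ) : ℝ≥0∞ :=
  ⨆ (N : ℕ) (v : Fin N → EuclideanSpace ℝ (Fin d)) (_ : ∀ i, ‖v i‖ ≤ 1) (_ : ∑ i, v i = 0),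
    ⨅ π : Equiv.Perm (Fin N), peak fun i => v (π i)

end Vale.Agent.P262
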