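import Mathlib

/-! The sequential splitting lemma. -/

namespace Vale.Agent.P262

open MeasureTheory Finset

abbrev H (N : ℕ) := EuclideanSpace ℝ (Fin N)

noncomputable def e {N : ℕ} (i : Fin N) : H N := EuclideanSpace.single i 1

lemma e_apply {N : ℕ} (i j : Fin N) : e i j = if j = i then 1 else 0 := by
  simp [e]

lemma norm_e {N : ℕ} (i : Fin N) : ‖e i‖ = 1 := by simp [e]

lemma inner_e {N : ℕ} (i : Fin N) (x : H N) : inner ℝ (e i) x = x i := by
  simp [e, EuclideanSpace.inner_single_left]

lemma max_min_lip (a b a' b' : ℝ) :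
    |max a b / 2 - max a' b' / 2| + |min a b / 2 - min a' b' / 2|
      ≤ |a - a'| / 2 + |b - b'| / 2 := by
  have h1 := le_abs_self (a - a')
  have h2 := neg_abs_le (a - a')
  have h3 := le_abs_self (b - b')
  have h4 := neg_abs_le (b - b')
  rcases abs_cases (max a b / 2 - max a' b' / 2) with ⟨h, -⟩ | ⟨h, -⟩ <;>
  rcases abs_cases (min a b / 2 - min a' b' / 2) with ⟨h', -⟩ | ⟨h', -⟩ <;>
  rw [h, h'] <;> simp only [max_def, min_def] <;> split_ifs <;> linarith

lemma min_half (a b : ℝ) : min a b / 2 = (a + b) / 4 - |a - b| / 4 := by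
  rcases le_total a b with h | h
  · rw [min_eq_left h, abs_of_nonpos (by linarith)]; ring
  · rw [min_eq_right h, abs_of_nonneg (by linarith)]; ring

lemma KL {N : ℕ} (ρ : ℝ) (hρ : 0 < ρ) (ℓ : Fin N → H N → ℝ)
    (hℓ : ∀ i j : Fin N, i ≤ j → ∀ (x : H N) (t : ℝ), ℓ i (x + t • e j) = ℓ i x) :
    ∀ n : ℕ, n ≤ N → ∀ (W : Type) [AddCommGroup W] [Module ℝ W] (F : Type) [Fintype F]
      (p : F → H N → ℝ) (hgt : F → W) (K : Set (H N × W)),
      Convex ℝ K → (∀ f, Integrable (p f)) → (∀ f x, 0 ≤ p f x) → (∀ f x, p f (-x) = p f x) →
      ∑ f, ∫ x, p f x = 1 → (∀ f x, p f x ≠ 0 → (x, hgt f) ∈ K) →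
      (∀ i : Fin N, i.val < n →
        ∑ f, ∫ x, |p f (x + (3 * ρ) • e i) - p f (x - (3 * ρ) • e i)| ≤ 1 / 3) →
      (∀ z ∈ K, ∀ i : Fin N, i.val < n → |ℓ i z.1| ≤ ρ / 2) →
      ∃ z : H N, (z, ∑ f, (∫ x, p f x) • hgt f) ∈ K ∧ (∀ i : Fin N, n ≤ i.val → z i = 0) ∧
        ∀ i : Fin N, i.val < n → (z i = ℓ i z + ρ ∨ z i = ℓ i z - ρ) := by
  intro n
  induction n with
  | zero =>
    intro _ W _ _ F _ p hgt K hK hint hpos hev hsum hsupp _ _
    classical
    refine ⟨0, ?_, fun i _ => rfl, fun i hi => absurd hi (Nat.not_lt_zero _)⟩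
    have h0 : ∀ f, (∫ x, p f x) ≠ 0 → ((0 : H N), hgt f) ∈ K := by
      intro f hf
      obtain ⟨x, hx⟩ : ∃ x, p f x ≠ 0 := by
        by_contra hc
        push Not at hc
        exact hf (by simp [hc])
      have h1 := hsupp f x hx
      have h2 := hsupp f (-x) (by rw [hev]; exact hx)
      have := hK h1 h2 (a := 1 / 2) (b := 1 / 2) (by norm_num) (by norm_num) (by norm_num)
      convert this using 1
      ext1
      · simp
      · simp [← add_smul]; norm_num
    have hm := hK.sum_mem (t := univ.filter fun f => (∫ x, p f x) ≠ 0)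
      (w := fun f => ∫ x, p f x) (z := fun f => ((0 : H N), hgt f))
      (fun f _ => integral_nonneg (hpos f))
      (by rw [Finset.sum_filter_ne_zero, hsum]) (fun f hf => h0 f (mem_filter.1 hf).2)
    convert hm using 1
    ext1
    · simp [Prod.fst_sum]
    · rw [Prod.snd_sum]
      simp only [Prod.smul_snd]
      rw [Finset.sum_filter]
      refine Finset.sum_congr rfl fun f _ => ?_
      split_ifs with h
      · rfl
      · push Not at h; simp [h]
  | succ n ih =>
    intro hn W _ _ F _ p hgt K hK hint hpos hev hsum hsupp hshift hpred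
    set j : Fin N := ⟨n, hn⟩ with hj
    set u : H N := (3 * ρ) • e j with hu
    let p' : F × Bool → H N → ℝ := fun f x =>
      if f.2 then min (p f.1 (x + u)) (p f.1 (x - u)) / 2
      else max (p f.1 (x + u)) (p f.1 (x - u)) / 2
    let hgt' : F × Bool → W × ℝ := fun f => (hgt f.1, if f.2 then 1 else 0)
    let K' : Set (H N × (W × ℝ)) := {q | ∃ c : ℝ, |c| ≤ 3 * ρ * (1 - q.2.2) ∧
      (q.1 + (c - 3 * ρ * q.2.2) • e j, q.2.1) ∈ K ∧ (q.1 + (c + 3 * ρ * q.2.2) • e j, q.2.1) ∈ K}
    have ia : ∀ f (w : H N), Integrable (fun x => p f (x + w)) := fun f w =>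
      (hint f).comp_add_right w
    have is : ∀ f (w : H N), Integrable (fun x => p f (x - w)) := fun f w =>
      (hint f).comp_sub_right w
    have imin : ∀ f, Integrable (fun x => min (p f (x + u)) (p f (x - u)) / 2) := fun f =>
      ((ia f u).inf (is f u)).div_const 2
    have imax : ∀ f, Integrable (fun x => max (p f (x + u)) (p f (x - u)) / 2) := fun f =>
      ((ia f u).sup (is f u)).div_const 2
    have hint' : ∀ f, Integrable (p' f) := by
      rintro ⟨f, b⟩
      cases b
      · exact imax f
      · exact imin f
    have hmass : ∀ f, (∫ x, p' (f, true) x) + ∫ x, p' (f, false) x = ∫ x, p f x := by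
      intro f
      rw [← integral_add (hint' _) (hint' _)]
      have : (fun x => p' (f, true) x + p' (f, false) x)
          = fun x => (p f (x + u) + p f (x - u)) / 2 := by
        ext x
        simp only [p', if_true, Bool.false_eq_true, if_false]
        rw [← add_div, min_add_max]
      rw [this, integral_div, integral_add (ia f u) (is f u), integral_add_right_eq_self,
        integral_sub_right_eq_self]
      ring
    have htop : ∀ f, ∫ x, p' (f, true) x
        = (∫ x, p f x) / 2 - (∫ x, |p f (x + u) - p f (x - u)|) / 4 := by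
      intro f
      have : (fun x => p' (f, true) x)
          = fun x => (p f (x + u) + p f (x - u)) / 4 - |p f (x + u) - p f (x - u)| / 4 := by
        ext x
        simp only [p', if_true, min_half]
      have k1 : Integrable (fun x => (p f (x + u) + p f (x - u)) / 4) :=
        ((ia f u).add (is f u)).div_const 4
      have k2 : Integrable (fun x => |p f (x + u) - p f (x - u)| / 4) :=
        ((ia f u).sub (is f u)).abs.div_const 4
      rw [this, integral_sub k1 k2, integral_div, integral_div,
        integral_add (ia f u) (is f u), integral_add_right_eq_self, integral_sub_right_eq_self]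
      ring
    have hK' : Convex ℝ K' := by
      rintro ⟨x, w, β⟩ ⟨c, hc, h1, h2⟩ ⟨x', w', β'⟩ ⟨c', hc', h1', h2'⟩ a b ha hb hab
      refine ⟨a * c + b * c', ?_, ?_, ?_⟩
      · simp only [Prod.smul_mk, Prod.mk_add_mk, smul_eq_mul] at *
        calc |a * c + b * c'| ≤ a * |c| + b * |c'| := by
              refine (abs_add_le _ _).trans ?_
              rw [abs_mul, abs_mul, abs_of_nonneg ha, abs_of_nonneg hb]
          _ ≤ a * (3 * ρ * (1 - β)) + b * (3 * ρ * (1 - β')) := by gcongr
          _ = 3 * ρ * ((a + b) - (a * β + b * β')) := by ring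
          _ = _ := by rw [hab]
      · convert hK h1 h1' ha hb hab using 1
        ext1
        · simp only [Prod.smul_mk, Prod.mk_add_mk, smul_eq_mul]
          module
        · rfl
      · convert hK h2 h2' ha hb hab using 1
        ext1
        · simp only [Prod.smul_mk, Prod.mk_add_mk, smul_eq_mul]
          module
        · rfl
    obtain ⟨z, ⟨c, hc, h1, h2⟩, hz0, hz⟩ := ih (by omega) (W × ℝ) (F × Bool) p' hgt' K' hK' hint'
      (by
        rintro ⟨f, b⟩ x
        have := hpos f (x + u)
        have := hpos f (x - u)
        cases b <;> simp only [p', if_true, Bool.false_eq_true, if_false] <;> positivity)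
      (by
        rintro ⟨f, b⟩ x
        have e1 : p f (-x + u) = p f (x - u) := by rw [← hev]; congr 1; abel
        have e2 : p f (-x - u) = p f (x + u) := by rw [← hev]; congr 1; abel
        cases b <;> simp only [p', if_true, Bool.false_eq_true, if_false, e1, e2]
        · rw [max_comm]
        · rw [min_comm])
      (by
        rw [Fintype.sum_prod_type, ← hsum]
        refine Finset.sum_congr rfl fun f _ => ?_
        rw [Fintype.sum_bool, hmass])
      (by
        rintro ⟨f, b⟩ x hx
        cases b
        · simp only [p', Bool.false_eq_true, if_false] at hx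
          by_cases h : p f (x + u) = 0
          · have h' : p f (x - u) ≠ 0 := by
              intro h'; apply hx; simp [h, h']
            refine ⟨-(3 * ρ), ?_, ?_, ?_⟩
            · simp [hgt', abs_of_pos hρ]
            · simpa [hgt', hu, sub_eq_add_neg] using hsupp f _ h'
            · simpa [hgt', hu, sub_eq_add_neg] using hsupp f _ h'
          · refine ⟨3 * ρ, ?_, ?_, ?_⟩
            · simp [hgt', abs_of_pos hρ]
            · simpa [hgt', hu] using hsupp f _ h
            · simpa [hgt', hu] using hsupp f _ h
        · simp only [p', if_true] at hx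
          have g1 := hpos f (x + u)
          have g2 := hpos f (x - u)
          have h1 : p f (x + u) ≠ 0 := by
            intro h'; apply hx; rw [h', min_eq_left g2]; simp
          have h2 : p f (x - u) ≠ 0 := by
            intro h'; apply hx; rw [h', min_eq_right g1]; simp
          refine ⟨0, ?_, ?_, ?_⟩
          · simp [hgt']
          · simpa [hgt', hu, sub_eq_add_neg] using hsupp f _ h2
          · simpa [hgt', hu] using hsupp f _ h1)
      (by
        intro i hi
        refine le_trans ?_ (hshift i (by omega))
        rw [Fintype.sum_prod_type]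
        refine Finset.sum_le_sum fun f _ => ?_
        set y : H N := (3 * ρ) • e i
        have j1 : ∀ g, Integrable (fun x => |p' g (x + y) - p' g (x - y)|) := fun g =>
          (((hint' g).comp_add_right y).sub ((hint' g).comp_sub_right y)).abs
        have j2 : Integrable (fun x => |p f (x + y) - p f (x - y)|) :=
          ((ia f y).sub (is f y)).abs
        rw [Fintype.sum_bool, ← integral_add (j1 _) (j1 _)]
        have e1 : ∫ x, |p f (x + y) - p f (x - y)|
            = ∫ x, (|p f (x + u + y) - p f (x + u - y)| / 2
              + |p f (x - u + y) - p f (x - u - y)| / 2) := by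
          rw [integral_add ((j2.comp_add_right u).div_const 2) ((j2.comp_sub_right u).div_const 2),
            integral_div, integral_div,
            integral_add_right_eq_self (fun x => |p f (x + y) - p f (x - y)|),
            integral_sub_right_eq_self (fun x => |p f (x + y) - p f (x - y)|)]
          ring
        rw [e1]
        refine integral_mono ((j1 _).add (j1 _))
          (((j2.comp_add_right u).div_const 2).add ((j2.comp_sub_right u).div_const 2)) ?_
        intro x
        simp only [p', if_true, Bool.false_eq_true, if_false]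
        have := max_min_lip (p f (x + y + u)) (p f (x + y - u)) (p f (x - y + u))
          (p f (x - y - u))
        rw [show x + u + y = x + y + u by abel, show x + u - y = x - y + u by abel,
          show x - u + y = x + y - u by abel, show x - u - y = x - y - u by abel]
        linarith)
      (by
        rintro q ⟨c, -, h1, -⟩ i hi
        have := hpred _ h1 i (by omega)
        rwa [hℓ i j (by rw [Fin.le_def]; simp only [hj]; omega)] at this)
    have hW : (∑ f, (∫ x, p' f x) • hgt' f).1 = ∑ f, (∫ x, p f x) • hgt f := by
      rw [Prod.fst_sum, Fintype.sum_prod_type]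
      refine Finset.sum_congr rfl fun f _ => ?_
      rw [Fintype.sum_bool, ← hmass, add_smul]
      rfl
    have hβ : 5 / 12 ≤ (∑ f, (∫ x, p' f x) • hgt' f).2 := by
      rw [Prod.snd_sum, Fintype.sum_prod_type]
      have : ∀ f, ∑ b : Bool, ((∫ x, p' (f, b) x) • hgt' (f, b)).2
          = (∫ x, p f x) / 2 - (∫ x, |p f (x + u) - p f (x - u)|) / 4 := by
        intro f
        rw [Fintype.sum_bool, ← htop]
        simp [hgt']
      rw [Finset.sum_congr rfl fun f _ => this f, Finset.sum_sub_distrib, ← Finset.sum_div,
        ← Finset.sum_div, hsum]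
      have := hshift j (by simp [hj])
      linarith
    simp only [hW] at h1 h2
    simp only at hc
    set β := (∑ f, (∫ x, p' f x) • hgt' f).2
    set w := ∑ f, (∫ x, p f x) • hgt f
    have hl : |ℓ j z| ≤ ρ / 2 := by
      have := hpred _ h1 j (by simp [hj])
      rwa [hℓ j j le_rfl] at this
    obtain ⟨t, ht, ht1, ht2⟩ : ∃ t, (t = ℓ j z + ρ ∨ t = ℓ j z - ρ) ∧ c - 3 * ρ * β ≤ t ∧
        t ≤ c + 3 * ρ * β := by
      have := abs_le.1 hl
      have := abs_le.1 hc
      have hb : 5 / 12 * ρ ≤ β * ρ := by gcongr
      rcases le_total (ℓ j z) c with h | h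
      · exact ⟨_, Or.inl rfl, by nlinarith, by nlinarith⟩
      · exact ⟨_, Or.inr rfl, by nlinarith, by nlinarith⟩
    have hb0 : 0 < 6 * ρ * β := by positivity
    refine ⟨z + t • e j, ?_, ?_, ?_⟩
    · have := hK h1 h2 (a := (c + 3 * ρ * β - t) / (6 * ρ * β))
        (b := (t - (c - 3 * ρ * β)) / (6 * ρ * β)) (div_nonneg (by linarith) hb0.le)
        (div_nonneg (by linarith) hb0.le) (by field_simp; ring)
      convert this using 1
      have s1 : (c + 3 * ρ * β - t) / (6 * ρ * β) + (t - (c - 3 * ρ * β)) / (6 * ρ * β) = 1 := by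
        field_simp; ring
      ext1
      · simp only [Prod.smul_mk, Prod.mk_add_mk, smul_add, smul_smul]
        rw [add_add_add_comm, ← add_smul, ← add_smul, s1, one_smul]
        congr 2
        field_simp; ring
      · simp only [Prod.smul_mk, Prod.mk_add_mk]
        rw [← add_smul, s1, one_smul]
    · intro i hi
      have : i ≠ j := by intro h; rw [h] at hi; simp [hj] at hi
      simp [hz0 i (by omega), e_apply, this]
    · intro i hi
      have hij : i ≤ j := by rw [Fin.le_def]; simp only [hj]; omega
      rw [hℓ i j hij]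
      by_cases h : i = j
      · subst h
        simpa [hz0 j (by simp [hj]), e_apply] using ht
      · have : i.val < n := by
          have : i.val ≠ n := fun h' => h (Fin.ext h')
          omega
        simpa [e_apply, h] using hz i this

end Vale.Agent.P262
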