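import Vale.Agent.P262.PL
import Vale.Agent.P262.KL

/-! A density supported in an intersection of quadratic constraints. -/

namespace Vale.Agent.P262

open MeasureTheory Finset

variable {N : ℕ}

noncomputable def gau (x : H N) : ℝ := Real.exp (-‖x‖ ^ 2 / 2)

lemma gau_pos (x : H N) : 0 < gau x := Real.exp_pos _

lemma gau_cont : Continuous (gau : H N → ℝ) := by unfold gau; fun_prop

lemma gau_neg (x : H N) : gau (-x) = gau x := by simp [gau]

lemma gau_int : Integrable (gau : H N → ℝ) := by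
  have := (GaussianFourier.integrable_cexp_neg_mul_sq_norm_add (V := H N) (b := 1 / 2)
    (by norm_num) 0 0).norm
  refine this.congr (Filter.Eventually.of_forall fun x => ?_)
  simp only [zero_mul, add_zero, Complex.norm_exp, gau]
  congr 1
  have : (-(1 / 2 : ℂ) * (‖x‖ : ℂ) ^ 2) = ((-‖x‖ ^ 2 / 2 : ℝ) : ℂ) := by push_cast; ring
  rw [this, Complex.ofReal_re]

lemma gau_mid (x y : H N) : gau x * gau y ≤ gau ((1 / 2 : ℝ) • (x + y)) ^ 2 := by
  unfold gau
  rw [← Real.exp_add, ← Real.exp_nat_mul, Real.exp_le_exp, norm_smul]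
  have := parallelogram_law_with_norm ℝ x y
  have := sq_nonneg ‖x - y‖
  simp only [Real.norm_eq_abs, Nat.cast_ofNat]
  rw [abs_of_pos (by norm_num)]
  nlinarith

/-- even, bounded, midpoint log-concave weights -/
structure Wt (F : H N → ℝ) : Prop where
  cont : Continuous F
  nn : ∀ x, 0 ≤ F x
  le : ∀ x, F x ≤ 1
  ev : ∀ x, F (-x) = F x
  mid : ∀ x y, F x * F y ≤ F ((1 / 2 : ℝ) • (x + y)) ^ 2

lemma int_bdd {F G : H N → ℝ} (hF : Continuous F) (h0 : ∀ x, 0 ≤ F x) (h1 : ∀ x, F x ≤ 1)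
    (hG : Integrable G) : Integrable (fun x => F x * G x) :=
  hG.bdd_mul (c := 1) hF.aestronglyMeasurable (Filter.Eventually.of_forall fun x => by
    rw [Real.norm_eq_abs, abs_of_nonneg (h0 x)]; exact h1 x)

lemma Wt.int {F : H N → ℝ} (hF : Wt F) : Integrable (fun x => F x * gau x) :=
  int_bdd hF.cont hF.nn hF.le gau_int

lemma Wt.anderson {F : H N → ℝ} (hF : Wt F) (m : H N) :
    ∫ x, F x * gau (x - m) ≤ ∫ x, F x * gau x := by
  have hc := hF.cont
  have gc := gau_cont (N := N)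
  have i1 : ∀ m : H N, Integrable (fun x => F (x + m) * gau x) := fun m =>
    int_bdd (by fun_prop) (fun _ => hF.nn _) (fun _ => hF.le _) gau_int
  have n1 : ∀ m x : H N, 0 ≤ F (x + m) * gau x := fun m x => mul_nonneg (hF.nn _) (gau_pos _).le
  have n0 : ∀ x : H N, 0 ≤ F x * gau x := fun x => mul_nonneg (hF.nn _) (gau_pos _).le
  have key := hasPL_euclidean N (fun x => ENNReal.ofReal (F (x + m) * gau x))
    (fun x => ENNReal.ofReal (F (x + -m) * gau x)) (fun x => ENNReal.ofReal (F x * gau x))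
    (Continuous.measurable (by fun_prop)).ennreal_ofReal
    (Continuous.measurable (by fun_prop)).ennreal_ofReal
    (Continuous.measurable (by fun_prop)).ennreal_ofReal (by
      intro x y
      rw [← ENNReal.ofReal_mul (n1 _ _), ← ENNReal.ofReal_pow (n0 _)]
      refine ENNReal.ofReal_le_ofReal ?_
      have h1 := hF.mid (x + m) (y + -m)
      rw [show x + m + (y + -m) = x + y by abel] at h1
      rw [mul_pow, mul_mul_mul_comm]
      exact mul_le_mul h1 (gau_mid x y) (mul_pos (gau_pos _) (gau_pos _)).le (sq_nonneg _))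
  rw [← ofReal_integral_eq_lintegral_ofReal (i1 m) (Filter.Eventually.of_forall (n1 m)),
    ← ofReal_integral_eq_lintegral_ofReal (i1 (-m)) (Filter.Eventually.of_forall (n1 (-m))),
    ← ofReal_integral_eq_lintegral_ofReal hF.int (Filter.Eventually.of_forall n0)] at key
  have e1 : ∫ x, F (x + -m) * gau x = ∫ x, F (x + m) * gau x := by
    rw [← integral_neg_eq_self]
    congr 1; ext x
    rw [gau_neg, ← hF.ev]; congr 2; abel
  have e2 : ∫ x, F x * gau (x - m) = ∫ x, F (x + m) * gau x := by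
    rw [← integral_add_right_eq_self _ m]; simp
  rw [e1, ← ENNReal.ofReal_mul (integral_nonneg (n1 m)),
    ← ENNReal.ofReal_pow (integral_nonneg n0),
    ENNReal.ofReal_le_ofReal_iff (sq_nonneg _), ← sq] at key
  rw [e2]
  exact (pow_le_pow_iff_left₀ (integral_nonneg (n1 m)) (integral_nonneg n0) two_ne_zero).1 key

lemma two_add_sq_le (s : ℝ) : 2 + s ^ 2 ≤ Real.exp s + Real.exp (-s) := by
  have h1 : Real.cosh (2 * (s / 2)) = (Real.exp s + Real.exp (-s)) / 2 := by
    rw [show 2 * (s / 2) = s by ring, Real.cosh_eq]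
  rw [Real.cosh_two_mul, Real.cosh_sq] at h1
  have h2 : (s / 2) ^ 2 ≤ Real.sinh (s / 2) ^ 2 := by
    rw [sq_le_sq, Real.abs_sinh, Real.self_le_sinh_iff]; exact abs_nonneg _
  linarith

lemma gau_shift (m x : H N) (hm : ‖m‖ = 1) :
    (2 + inner ℝ m x ^ 2) * gau x ≤ 2 * (gau (x - m) + gau (x - -m)) := by
  have e1 : gau (x - m) = gau x * Real.exp (inner ℝ m x) * Real.exp (-1 / 2) := by
    unfold gau
    rw [← Real.exp_add, ← Real.exp_add, norm_sub_sq_real, hm, real_inner_comm]; congr 1; ring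
  have e2 : gau (x - -m) = gau x * Real.exp (-inner ℝ m x) * Real.exp (-1 / 2) := by
    unfold gau
    rw [← Real.exp_add, ← Real.exp_add, sub_neg_eq_add, norm_add_sq_real, hm, real_inner_comm]
    congr 1; ring
  have h1 : (1 : ℝ) / 2 ≤ Real.exp (-1 / 2) := by
    have := Real.add_one_le_exp (-1 / 2 : ℝ); linarith
  have h2 := two_add_sq_le (inner ℝ m x)
  have h3 := gau_pos x
  rw [e1, e2]
  have h4 : 0 ≤ 2 + inner ℝ m x ^ 2 := by positivity
  calc (2 + inner ℝ m x ^ 2) * gau x = 2 * (gau x * (2 + inner ℝ m x ^ 2) * (1 / 2)) := by ring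
    _ ≤ 2 * (gau x * (Real.exp (inner ℝ m x) + Real.exp (-inner ℝ m x)) * Real.exp (-1 / 2)) := by
        gcongr
    _ = _ := by ring

lemma Wt.moment {F : H N → ℝ} (hF : Wt F) (θ : H N) :
    Integrable (fun x => inner ℝ θ x ^ 2 * (F x * gau x)) ∧
    ∫ x, inner ℝ θ x ^ 2 * (F x * gau x) ≤ 2 * ‖θ‖ ^ 2 * ∫ x, F x * gau x := by
  by_cases h : θ = 0
  · simp [h]
  have hn : 0 < ‖θ‖ := norm_pos_iff.2 h
  set m : H N := ‖θ‖⁻¹ • θ with hm
  have hm1 : ‖m‖ = 1 := by rw [hm, norm_smul]; simp [hn.ne']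
  have hθ : ∀ x, inner ℝ θ x = ‖θ‖ * inner ℝ m x := by
    intro x; rw [hm, real_inner_smul_left]; field_simp
  have i1 : ∀ m : H N, Integrable (fun x => F x * gau (x - m)) := fun m =>
    int_bdd hF.cont hF.nn hF.le (gau_int.comp_sub_right m)
  have hb : ∀ x, inner ℝ m x ^ 2 * (F x * gau x)
      ≤ 2 * (F x * gau (x - m)) + 2 * (F x * gau (x - -m)) - 2 * (F x * gau x) := by
    intro x
    have := mul_le_mul_of_nonneg_left (gau_shift m x hm1) (hF.nn x)
    linarith
  have i2 : Integrable (fun x =>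
      2 * (F x * gau (x - m)) + 2 * (F x * gau (x - -m)) - 2 * (F x * gau x)) :=
    (((i1 m).const_mul 2).add ((i1 (-m)).const_mul 2)).sub (hF.int.const_mul 2)
  have hc := hF.cont
  have gc := gau_cont (N := N)
  have i3 : Integrable (fun x => inner ℝ m x ^ 2 * (F x * gau x)) := by
    refine i2.mono' (Continuous.aestronglyMeasurable (by fun_prop))
      (Filter.Eventually.of_forall fun x => ?_)
    rw [Real.norm_eq_abs, abs_of_nonneg
      (mul_nonneg (sq_nonneg _) (mul_nonneg (hF.nn _) (gau_pos _).le))]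
    exact hb x
  have e1 : (fun x => inner ℝ θ x ^ 2 * (F x * gau x))
      = fun x => ‖θ‖ ^ 2 * (inner ℝ m x ^ 2 * (F x * gau x)) := by
    ext x; rw [hθ]; ring
  rw [e1]
  refine ⟨i3.const_mul _, ?_⟩
  have h1 := integral_mono i3 i2 hb
  have j1 : Integrable (fun x => 2 * (F x * gau (x - m)) + 2 * (F x * gau (x - -m))) :=
    ((i1 m).const_mul 2).add ((i1 (-m)).const_mul 2)
  rw [integral_sub j1 (hF.int.const_mul 2), integral_add ((i1 m).const_mul 2)
    ((i1 (-m)).const_mul 2), integral_const_mul, integral_const_mul, integral_const_mul] at h1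
  have a1 := hF.anderson m
  have a2 := hF.anderson (-m)
  rw [integral_const_mul]
  have := sq_nonneg ‖θ‖
  nlinarith

/-- weighted Hilbert–Schmidt square -/
noncomputable def hw (w : Fin N → ℝ) (B : H N →L[ℝ] H N) : ℝ := ∑ i, w i * ‖B (e i)‖ ^ 2

lemma expand (x : H N) : x = ∑ i, x i • e i := by
  ext j
  simp [Finset.sum_apply, Pi.single_apply, e]

lemma Wt.quad {F : H N → ℝ} (hF : Wt F) (B : H N →L[ℝ] H N) :
    Integrable (fun x => ‖B x‖ ^ 2 * (F x * gau x)) ∧
    ∫ x, ‖B x‖ ^ 2 * (F x * gau x) ≤ 2 * hw 1 B * ∫ x, F x * gau x := by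
  let θ : Fin N → H N := fun j => WithLp.toLp 2 fun i => B (e i) j
  have h1 : ∀ x j, B x j = inner ℝ (θ j) x := by
    intro x j
    conv_lhs => rw [expand x]
    simp [θ, PiLp.inner_apply, map_sum, Finset.sum_apply]
  have h2 : (fun x => ‖B x‖ ^ 2 * (F x * gau x))
      = fun x => ∑ j, inner ℝ (θ j) x ^ 2 * (F x * gau x) := by
    ext x
    rw [EuclideanSpace.real_norm_sq_eq, Finset.sum_mul]
    simp [h1]
  have h3 : ∑ j, ‖θ j‖ ^ 2 = hw 1 B := by
    simp only [hw, EuclideanSpace.real_norm_sq_eq, θ, Pi.one_apply, one_mul]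
    exact Finset.sum_comm
  rw [h2]
  refine ⟨integrable_finsetSum _ fun j _ => (hF.moment (θ j)).1, ?_⟩
  rw [integral_finsetSum _ fun j _ => (hF.moment (θ j)).1, ← h3, Finset.mul_sum, Finset.sum_mul]
  exact Finset.sum_le_sum fun j _ => (hF.moment (θ j)).2

end Vale.Agent.P262
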