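import Vale.Agent.P262.Dens

/-! The product density and its shift distances. -/

namespace Vale.Agent.P262

open MeasureTheory Finset

variable {N : ℕ}

abbrev Con (N : ℕ) := (H N →L[ℝ] H N) × ℝ

noncomputable def zeta (c : Con N) (x : H N) : ℝ := max 0 (1 - (‖c.1 x‖ ^ 2 / c.2 ^ 2) ^ 2)

lemma zeta_cont (c : Con N) : Continuous (zeta c) := by unfold zeta; fun_prop

lemma zeta_nn (c : Con N) (x : H N) : 0 ≤ zeta c x := le_max_left _ _

lemma zeta_le (c : Con N) (x : H N) : zeta c x ≤ 1 :=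
  max_le zero_le_one (by linarith [sq_nonneg (‖c.1 x‖ ^ 2 / c.2 ^ 2)])

lemma zeta_neg (c : Con N) (x : H N) : zeta c (-x) = zeta c x := by simp [zeta]

lemma mid_real {a b m : ℝ} (hm : 0 ≤ m) (h : m ≤ (a + b) / 2) :
    max 0 (1 - a ^ 2) * max 0 (1 - b ^ 2) ≤ max 0 (1 - m ^ 2) ^ 2 := by
  rcases le_total (1 - a ^ 2) 0 with ha | ha
  · rw [max_eq_left ha, zero_mul]; positivity
  rcases le_total (1 - b ^ 2) 0 with hb | hb
  · rw [max_eq_left hb, mul_zero]; positivity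
  rw [max_eq_right ha, max_eq_right hb]
  have h1 : m ^ 2 ≤ ((a + b) / 2) ^ 2 := by gcongr
  have h2 : ((1 - a ^ 2) + (1 - b ^ 2)) / 2 ≤ max 0 (1 - m ^ 2) :=
    le_max_of_le_right (by nlinarith [sq_nonneg (a - b)])
  calc (1 - a ^ 2) * (1 - b ^ 2) ≤ (((1 - a ^ 2) + (1 - b ^ 2)) / 2) ^ 2 := by
        nlinarith [sq_nonneg ((1 - a ^ 2) - (1 - b ^ 2))]
    _ ≤ _ := by gcongr

lemma zeta_mid (c : Con N) (x y : H N) :
    zeta c x * zeta c y ≤ zeta c ((1 / 2 : ℝ) • (x + y)) ^ 2 := by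
  refine mid_real (by positivity) ?_
  rw [← add_div, div_right_comm]
  refine div_le_div_of_nonneg_right ?_ (sq_nonneg _)
  rw [map_smul, map_add, norm_smul, Real.norm_eq_abs, abs_of_pos (by norm_num)]
  have := parallelogram_law_with_norm ℝ (c.1 x) (c.1 y)
  nlinarith [sq_nonneg ‖c.1 x - c.1 y‖]

lemma zeta_lower (c : Con N) (x : H N) : 1 - 2 * (‖c.1 x‖ ^ 2 / c.2 ^ 2) ≤ zeta c x ^ 2 := by
  unfold zeta
  set y := ‖c.1 x‖ ^ 2 / c.2 ^ 2
  have hy : 0 ≤ y := by positivity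
  rcases le_total y 1 with h | h
  · rw [max_eq_right (by nlinarith)]; nlinarith [sq_nonneg (y ^ 2)]
  · nlinarith [sq_nonneg (max 0 (1 - y ^ 2))]

lemma second_real {y q b : ℝ} (hy : 0 ≤ y) (hq : 0 ≤ q) (hb : b ^ 2 ≤ y * q) :
    max 0 (1 - y ^ 2) ^ 2 - max 0 (1 - (y + 2 * b + q) ^ 2) * max 0 (1 - (y - 2 * b + q) ^ 2)
      ≤ 76 * y * q + 2 * q ^ 2 := by
  set zp := max 0 (1 - (y + 2 * b + q) ^ 2) with hzp
  set zm := max 0 (1 - (y - 2 * b + q) ^ 2) with hzm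
  have p0 : 0 ≤ zp := le_max_left _ _
  have m0 : 0 ≤ zm := le_max_left _ _
  have p1 : zp ≤ 1 := max_le zero_le_one (by nlinarith [sq_nonneg (y + 2 * b + q)])
  have m1 : zm ≤ 1 := max_le zero_le_one (by nlinarith [sq_nonneg (y - 2 * b + q)])
  have pm : 0 ≤ zp * zm := mul_nonneg p0 m0
  have yq : 0 ≤ y * q := mul_nonneg hy hq
  rcases le_total 1 y with h | h
  · rw [max_eq_left (by nlinarith)]; nlinarith
  have z0 : 0 ≤ 1 - y ^ 2 := by nlinarith
  rw [max_eq_right z0]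
  rcases le_total 1 q with h' | h'
  · nlinarith [sq_nonneg y]
  have p2 : 1 - (y + 2 * b + q) ^ 2 ≤ zp := le_max_right _ _
  have m2 : 1 - (y - 2 * b + q) ^ 2 ≤ zm := le_max_right _ _
  have hE : (1 - y ^ 2) - (zp + zm) / 2 ≤ 6 * y * q + q ^ 2 := by nlinarith
  have h1 : (1 - y ^ 2) ^ 2 - ((zp + zm) / 2) ^ 2 ≤ 2 * (6 * y * q + q ^ 2) := by
    rcases le_total (1 - y ^ 2) ((zp + zm) / 2) with g | g
    · have : (1 - y ^ 2) ^ 2 ≤ ((zp + zm) / 2) ^ 2 := by gcongr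
      nlinarith [sq_nonneg q]
    · have e : (1 - y ^ 2) ^ 2 - ((zp + zm) / 2) ^ 2
          = ((1 - y ^ 2) - (zp + zm) / 2) * ((1 - y ^ 2) + (zp + zm) / 2) := by ring
      rw [e, mul_comm]
      exact mul_le_mul (by nlinarith [sq_nonneg y]) hE (by linarith) (by norm_num)
  have h2 : |zp - zm| ≤ |8 * b * (y + q)| := by
    have := abs_max_sub_max_le_abs (1 - (y + 2 * b + q) ^ 2) (1 - (y - 2 * b + q) ^ 2) 0
    rw [max_comm _ 0, max_comm _ 0] at this
    refine this.trans (le_of_eq ?_)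
    rw [← abs_neg]; congr 1; ring
  have h3 : (zp - zm) ^ 2 ≤ (8 * b * (y + q)) ^ 2 := sq_le_sq.2 h2
  have h4 : (8 * b * (y + q)) ^ 2 ≤ 256 * (y * q) := by
    have : (y + q) ^ 2 ≤ 4 := by nlinarith
    calc (8 * b * (y + q)) ^ 2 = 64 * (b ^ 2 * (y + q) ^ 2) := by ring
      _ ≤ 64 * ((y * q) * 4) := by gcongr
      _ = _ := by ring
  nlinarith

lemma zeta_second (c : Con N) (x u : H N) :
    zeta c x ^ 2 - zeta c (x + u) * zeta c (x - u)
      ≤ 76 * (‖c.1 x‖ ^ 2 / c.2 ^ 2) * (‖c.1 u‖ ^ 2 / c.2 ^ 2)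
        + 2 * (‖c.1 u‖ ^ 2 / c.2 ^ 2) ^ 2 := by
  have := second_real (y := ‖c.1 x‖ ^ 2 / c.2 ^ 2) (q := ‖c.1 u‖ ^ 2 / c.2 ^ 2)
    (b := inner ℝ (c.1 x) (c.1 u) / c.2 ^ 2) (by positivity) (by positivity) (by
      rw [div_pow, div_mul_div_comm, ← sq (c.2 ^ 2), ← mul_pow]
      refine div_le_div_of_nonneg_right ?_ (sq_nonneg _)
      exact sq_le_sq.2 ((abs_real_inner_le_norm _ _).trans (le_abs_self _)))
  unfold zeta
  rw [map_add, map_sub, norm_add_sq_real, norm_sub_sq_real]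
  convert this using 6 <;> ring

lemma wt_prod (S : Finset (Con N)) : Wt (fun x => ∏ c ∈ S, zeta c x ^ 2) where
  cont := continuous_finsetProd _ fun c _ => (zeta_cont c).pow 2
  nn x := prod_nonneg fun c _ => sq_nonneg _
  le x := prod_le_one (fun c _ => sq_nonneg _) fun c _ => pow_le_one₀ (zeta_nn c x) (zeta_le c x)
  ev x := by simp [zeta_neg]
  mid x y := by
    rw [← prod_mul_distrib, ← prod_pow]
    refine prod_le_prod (fun c _ => by positivity) fun c _ => ?_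
    rw [← mul_pow]
    exact pow_le_pow_left₀ (mul_nonneg (zeta_nn _ _) (zeta_nn _ _)) (zeta_mid c x y) 2

lemma prod_sub_prod {ι : Type*} [DecidableEq ι] (S : Finset ι) (a b : ι → ℝ)
    (hb : ∀ i, 0 ≤ b i) (hab : ∀ i, b i ≤ a i) :
    ∏ i ∈ S, a i - ∏ i ∈ S, b i ≤ ∑ i ∈ S, (a i - b i) * ∏ j ∈ S.erase i, a j := by
  induction S using Finset.induction_on with
  | empty => simp
  | insert k S hk ih =>
    rw [prod_insert hk, prod_insert hk, sum_insert hk, erase_insert hk]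
    have e : ∑ i ∈ S, (a i - b i) * ∏ j ∈ (insert k S).erase i, a j
        = a k * ∑ i ∈ S, (a i - b i) * ∏ j ∈ S.erase i, a j := by
      rw [mul_sum]
      refine sum_congr rfl fun i hi => ?_
      have : k ≠ i := fun h => hk (h ▸ hi)
      rw [erase_insert_of_ne this, prod_insert (fun h => hk (mem_of_mem_erase h))]
      ring
    rw [e]
    have h1 : ∏ i ∈ S, b i ≤ ∏ i ∈ S, a i := prod_le_prod (fun i _ => hb i) fun i _ => hab i
    have h2 := mul_le_mul_of_nonneg_left ih ((hb k).trans (hab k))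
    have h3 := mul_le_mul_of_nonneg_left h1 (sub_nonneg.2 (hab k))
    linarith

lemma sq_e_le_hw (B : H N →L[ℝ] H N) (i : Fin N) : ‖B (e i)‖ ^ 2 ≤ hw 1 B := by
  unfold hw
  simpa using single_le_sum (f := fun j => ‖B (e j)‖ ^ 2) (fun j _ => sq_nonneg _) (mem_univ i)

/-- the loss caused by one constraint -/
lemma one_loss (S : Finset (Con N)) [DecidableEq (Con N)] {c : Con N} (hc : c ∈ S)
    (h0 : 0 < c.2) (h8 : 8 * hw 1 c.1 ≤ c.2 ^ 2) {s : ℝ} (hs : s ^ 2 ≤ 1) (i : Fin N) :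
    ∃ g : H N → ℝ, Integrable g ∧
      (∀ x, (zeta c x ^ 2 - zeta c (x + s • e i) * zeta c (x - s • e i)) *
        (∏ j ∈ S.erase c, zeta j x ^ 2) * gau x ≤ g x) ∧
      ∫ x, g x ≤ s ^ 2 * (308 * (‖c.1 (e i)‖ ^ 2 * hw 1 c.1 / c.2 ^ 4)) *
        ∫ x, (∏ j ∈ S, zeta j x ^ 2) * gau x := by
  have W := wt_prod (S.erase c)
  set F : H N → ℝ := fun x => ∏ j ∈ S.erase c, zeta j x ^ 2 with hF
  set q := ‖c.1 (s • e i)‖ ^ 2 / c.2 ^ 2 with hq
  set h := hw 1 c.1 / c.2 ^ 2 with hh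
  have r2 : 0 < c.2 ^ 2 := by positivity
  have hq' : q = s ^ 2 * (‖c.1 (e i)‖ ^ 2 / c.2 ^ 2) := by
    rw [hq, map_smul, norm_smul, mul_pow, Real.norm_eq_abs, sq_abs]; ring
  have q0 : 0 ≤ q := by positivity
  have qh : q ≤ h := by
    rw [hq', hh]
    calc s ^ 2 * (‖c.1 (e i)‖ ^ 2 / c.2 ^ 2) ≤ 1 * (hw 1 c.1 / c.2 ^ 2) := by
          gcongr; exact sq_e_le_hw _ _
      _ = _ := one_mul _
  have h18 : h ≤ 1 / 8 := by rw [hh, div_le_iff₀ r2]; linarith
  obtain ⟨iq, bq⟩ := W.quad c.1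
  set Z := ∫ x, F x * gau x with hZ
  have Z0 : 0 ≤ Z := integral_nonneg fun x => mul_nonneg (W.nn x) (gau_pos x).le
  have iy : Integrable (fun x => (‖c.1 x‖ ^ 2 * (F x * gau x)) / c.2 ^ 2) := iq.div_const _
  have by' : ∫ x, (‖c.1 x‖ ^ 2 * (F x * gau x)) / c.2 ^ 2 ≤ 2 * h * Z := by
    rw [integral_div, div_le_iff₀ r2]
    refine bq.trans (le_of_eq ?_)
    rw [hh]; field_simp
  have low : Z / 2 ≤ ∫ x, (∏ j ∈ S, zeta j x ^ 2) * gau x := by
    have j1 : Integrable (fun x => F x * gau x - 2 * ((‖c.1 x‖ ^ 2 * (F x * gau x)) / c.2 ^ 2)) :=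
      W.int.sub (iy.const_mul 2)
    have := integral_mono j1 (wt_prod S).int (fun x => by
      have h1 := mul_le_mul_of_nonneg_right (zeta_lower c x) (mul_nonneg (W.nn x) (gau_pos x).le)
      simp only
      rw [← mul_prod_erase S _ hc]
      refine le_trans (le_of_eq ?_) (h1.trans (le_of_eq ?_))
      · ring
      · simp only [hF]; ring)
    rw [integral_sub W.int (iy.const_mul 2), integral_const_mul] at this
    nlinarith
  refine ⟨fun x => 76 * q * ((‖c.1 x‖ ^ 2 * (F x * gau x)) / c.2 ^ 2) + 2 * q ^ 2 * (F x * gau x),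
    (iy.const_mul _).add (W.int.const_mul _), fun x => ?_, ?_⟩
  · have := mul_le_mul_of_nonneg_right (zeta_second c x (s • e i))
      (mul_nonneg (W.nn x) (gau_pos x).le)
    refine le_trans (le_of_eq ?_) (this.trans (le_of_eq ?_))
    · simp only [hF]; ring
    · ring
  · rw [integral_add (iy.const_mul _) (W.int.const_mul _), integral_const_mul, integral_const_mul]
    have e1 : s ^ 2 * (308 * (‖c.1 (e i)‖ ^ 2 * hw 1 c.1 / c.2 ^ 4)) = 308 * (q * h) := by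
      rw [hq', hh]; field_simp
    rw [e1]
    have k1 : 76 * q * ∫ x, (‖c.1 x‖ ^ 2 * (F x * gau x)) / c.2 ^ 2 ≤ 76 * q * (2 * h * Z) := by
      gcongr
    have k2 : 2 * q ^ 2 * Z ≤ 2 * (q * h) * Z := by rw [sq]; gcongr
    have k3 : 308 * (q * h) * (Z / 2) ≤ 308 * (q * h) * ∫ x, (∏ j ∈ S, zeta j x ^ 2) * gau x := by
      have := q0.trans qh
      gcongr
    linarith

lemma abs_sq_sub_le {a b τ : ℝ} (hτ : 0 < τ) :
    |a ^ 2 - b ^ 2| ≤ (1 / (2 * τ) + τ) * (a ^ 2 + b ^ 2) - a * b / τ := by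
  have e : (1 / (2 * τ) + τ) * (a ^ 2 + b ^ 2) - a * b / τ
      = ((a - b) ^ 2 + τ ^ 2 * (2 * (a ^ 2 + b ^ 2))) / (2 * τ) := by field_simp; ring
  rw [e, le_div_iff₀ (by positivity)]
  have h1 : τ ^ 2 * (a + b) ^ 2 ≤ τ ^ 2 * (2 * (a ^ 2 + b ^ 2)) := by
    gcongr; nlinarith [sq_nonneg (a - b)]
  rcases abs_cases (a ^ 2 - b ^ 2) with ⟨h, -⟩ | ⟨h, -⟩ <;> rw [h]
  · nlinarith [sq_nonneg ((a - b) - τ * (a + b))]
  · nlinarith [sq_nonneg ((a - b) + τ * (a + b))]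

lemma density (S : Finset (Con N)) (hS : ∀ c ∈ S, 0 < c.2 ∧ 8 * hw 1 c.1 ≤ c.2 ^ 2)
    {s τ : ℝ} (hs : s ^ 2 ≤ 1) (hτ : 0 < τ) :
    ∃ p : H N → ℝ, Integrable p ∧ (∀ x, 0 ≤ p x) ∧ (∀ x, p (-x) = p x) ∧ ∫ x, p x = 1 ∧
      (∀ x, p x ≠ 0 → ∀ c ∈ S, ‖c.1 x‖ ≤ c.2) ∧
      ∀ i, ∫ x, |p (x + s • e i) - p (x - s • e i)| ≤
        2 * τ + s ^ 2 / τ * (1 / 2 + 308 * ∑ c ∈ S, ‖c.1 (e i)‖ ^ 2 * hw 1 c.1 / c.2 ^ 4) := by
  classical
  have W := wt_prod S
  set F : H N → ℝ := fun x => ∏ j ∈ S, zeta j x ^ 2 with hF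
  set Z := ∫ x, F x * gau x with hZ
  have P0 : ∀ x, 0 ≤ F x * gau x := fun x => mul_nonneg (W.nn x) (gau_pos x).le
  have Z0 : 0 < Z := integral_pos_of_integrable_nonneg_nonzero (x := 0) (W.cont.mul gau_cont)
    W.int P0 (by simp [hF, zeta, gau])
  refine ⟨fun x => F x * gau x / Z, W.int.div_const _, fun x => div_nonneg (P0 x) Z0.le,
    fun x => by simp only [W.ev, gau_neg], by rw [integral_div, div_self Z0.ne'], ?_, ?_⟩
  · intro x hx c hc
    by_contra hlt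
    push Not at hlt
    apply hx
    have : zeta c x = 0 := by
      unfold zeta
      refine max_eq_left ?_
      have h0 := (hS c hc).1
      have : 1 ≤ ‖c.1 x‖ ^ 2 / c.2 ^ 2 := by
        rw [one_le_div (by positivity)]; gcongr
      nlinarith
    simp only [hF]
    rw [prod_eq_zero hc (by rw [this]; simp)]
    simp
  intro i
  set u := s • e i with hu
  choose! g gi gb gI using fun c (hc : c ∈ S) => one_loss S hc (hS c hc).1 (hS c hc).2 hs i
  let ψ : H N → ℝ := fun x => (∏ j ∈ S, zeta j x) * Real.exp (-‖x‖ ^ 2 / 4)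
  have hψ : ∀ x, F x * gau x = ψ x ^ 2 := by
    intro x
    simp only [hF, ψ, gau]
    rw [mul_pow, prod_pow, ← Real.exp_nat_mul]; congr 2; push_cast; ring
  have hun : ‖u‖ ^ 2 = s ^ 2 := by rw [hu, norm_smul, norm_e, mul_one, Real.norm_eq_abs, sq_abs]
  have hpm : ∀ x, F x * gau x - ψ (x + u) * ψ (x - u)
      ≤ s ^ 2 / 2 * (F x * gau x) + ∑ c ∈ S, g c x := by
    intro x
    have e1 : ψ (x + u) * ψ (x - u)
        = (∏ j ∈ S, zeta j (x + u) * zeta j (x - u)) * gau x * Real.exp (-s ^ 2 / 2) := by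
      simp only [ψ, gau]
      rw [prod_mul_distrib, mul_mul_mul_comm, ← Real.exp_add, mul_assoc _ (Real.exp _),
        ← Real.exp_add]
      congr 2
      have := parallelogram_law_with_norm ℝ x u
      nlinarith
    have hab : ∀ j : Con N, zeta j (x + u) * zeta j (x - u) ≤ zeta j x ^ 2 := by
      intro j
      have := zeta_mid j (x + u) (x - u)
      rwa [show (1 / 2 : ℝ) • (x + u + (x - u)) = x by module] at this
    have hb : ∀ j : Con N, 0 ≤ zeta j (x + u) * zeta j (x - u) := fun j =>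
      mul_nonneg (zeta_nn _ _) (zeta_nn _ _)
    have h1 := prod_sub_prod S (fun j => zeta j x ^ 2) _ hb hab
    have h2 : ∏ j ∈ S, zeta j (x + u) * zeta j (x - u) ≤ F x :=
      prod_le_prod (fun j _ => hb j) fun j _ => hab j
    have h3 : 0 ≤ ∏ j ∈ S, zeta j (x + u) * zeta j (x - u) := prod_nonneg fun j _ => hb j
    have h4 := mul_le_mul_of_nonneg_right h1 (gau_pos x).le
    rw [sum_mul] at h4
    have h5 := sum_le_sum fun c hc => gb c hc x
    have h6 : 1 - s ^ 2 / 2 ≤ Real.exp (-s ^ 2 / 2) := by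
      have := Real.add_one_le_exp (-s ^ 2 / 2); linarith
    rw [e1]
    set b := ∏ j ∈ S, zeta j (x + u) * zeta j (x - u)
    have h7 : b * gau x * (1 - s ^ 2 / 2) ≤ b * gau x * Real.exp (-s ^ 2 / 2) :=
      mul_le_mul_of_nonneg_left h6 (mul_nonneg h3 (gau_pos x).le)
    have h8 : s ^ 2 / 2 * (b * gau x) ≤ s ^ 2 / 2 * (F x * gau x) := by
      have := (gau_pos x).le
      gcongr
    have h9 : (F x - b) * gau x ≤ ∑ c ∈ S, g c x := h4.trans h5
    linarith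
  have gS : Integrable (fun x => ∑ c ∈ S, g c x) := integrable_finsetSum _ gi
  have ip : Integrable (fun x => F (x + u) * gau (x + u)) := W.int.comp_add_right u
  have im : Integrable (fun x => F (x - u) * gau (x - u)) := W.int.comp_sub_right u
  have j0 : Integrable (fun x => F (x + u) * gau (x + u) + F (x - u) * gau (x - u)) := ip.add im
  have j1 : Integrable (fun x => (1 / (2 * τ) + τ) *
      (F (x + u) * gau (x + u) + F (x - u) * gau (x - u))) := j0.const_mul _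
  have j2 : Integrable (fun x => (s ^ 2 / 2 - 1) * (F x * gau x) + ∑ c ∈ S, g c x) :=
    (W.int.const_mul _).add gS
  have j3 : Integrable (fun x => ((s ^ 2 / 2 - 1) * (F x * gau x) + ∑ c ∈ S, g c x) / τ) :=
    j2.div_const _
  have main : ∫ x, |F (x + u) * gau (x + u) - F (x - u) * gau (x - u)|
      ≤ (2 * τ + s ^ 2 / τ * (1 / 2 + 308 * ∑ c ∈ S, ‖c.1 (e i)‖ ^ 2 * hw 1 c.1 / c.2 ^ 4)) * Z := by
    have := integral_mono (ip.sub im).abs (j1.add j3) (fun x => by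
      simp only [Pi.add_apply, Pi.sub_apply]
      have h1 := abs_sq_sub_le (a := ψ (x + u)) (b := ψ (x - u)) hτ
      rw [← hψ, ← hψ] at h1
      refine h1.trans ?_
      rw [sub_eq_add_neg, ← neg_div]
      gcongr
      linarith [hpm x])
    refine le_trans (le_of_eq rfl) (this.trans ?_)
    simp only [Pi.add_apply]
    rw [integral_add j1 j3, integral_const_mul, integral_add ip im, integral_div,
      integral_add (W.int.const_mul _) gS, integral_const_mul, integral_finsetSum _ gi,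
      integral_add_right_eq_self (fun x => F x * gau x),
      integral_sub_right_eq_self (fun x => F x * gau x), ← hZ]
    have h2 := sum_le_sum gI
    rw [← sum_mul, ← mul_sum, ← mul_sum] at h2
    set T := ∑ c ∈ S, ‖c.1 (e i)‖ ^ 2 * hw 1 c.1 / c.2 ^ 4
    calc (1 / (2 * τ) + τ) * (Z + Z) + ((s ^ 2 / 2 - 1) * Z + ∑ c ∈ S, ∫ x, g c x) / τ
        ≤ (1 / (2 * τ) + τ) * (Z + Z) + ((s ^ 2 / 2 - 1) * Z + s ^ 2 * (308 * T) * Z) / τ := by
          gcongr
      _ = _ := by field_simp; ring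
  simp only [← sub_div, abs_div, abs_of_pos Z0]
  rw [integral_div, div_le_iff₀ Z0]
  exact main

end Vale.Agent.P262
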