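import Vale.Agent.P262.Spec

/-! The leaky filter, the minimax step and the signing theorem. -/

namespace Vale.Agent.P262

open Finset MeasureTheory

variable {N d : ℕ}

noncomputable def e' (N t : ℕ) : H N := if h : t < N then e ⟨t, h⟩ else 0

lemma e'_apply (t : ℕ) (i : Fin N) : e' N t i = if i.val = t then 1 else 0 := by
  unfold e'
  split_ifs with h h' h'
  · simp [e_apply, Fin.ext_iff, h']
  · simp [e_apply, Fin.ext_iff, h']
  · exact absurd (h' ▸ i.2) h
  · rfl

lemma norm_e'_le (t : ℕ) : ‖e' N t‖ ≤ 1 := by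
  unfold e'
  split_ifs
  · exact (norm_e _).le
  · simp

noncomputable def iota (N : ℕ) (η : ℝ) (v : ℕ → H d) : ℕ → H d →ₗ[ℝ] H N
  | 0 => 0
  | t + 1 => iota N η v t ∘ₗ (LinearMap.id - η • (innerₗ (H d) (v t)).smulRight (v t))
      + (innerₗ (H d) (v t)).smulRight (e' N t)

variable {η : ℝ} {v : ℕ → H d}

lemma iota_succ (t : ℕ) (w : H d) : iota N η v (t + 1) w
    = iota N η v t (w - (η * inner ℝ (v t) w) • v t) + inner ℝ (v t) w • e' N t := by
  simp [iota, smul_smul]

lemma iota_mem (t : ℕ) (w : H d) : iota N η v t w ∈ Ec N t := by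
  induction t generalizing w with
  | zero => exact Submodule.zero_mem _
  | succ t ih =>
    intro i hi
    rw [iota_succ, PiLp.add_apply, ih _ i (by omega), PiLp.smul_apply, e'_apply,
      if_neg (by omega)]
    simp

lemma norm_T (hη : 0 ≤ η) (hη1 : η ≤ 1) {u : H d} (hu : ‖u‖ ≤ 1) (w : H d) :
    ‖w - (η * inner ℝ u w) • u‖ ^ 2 + η * inner ℝ u w ^ 2 ≤ ‖w‖ ^ 2 := by
  rw [norm_sub_sq_real, real_inner_smul_right, norm_smul, mul_pow, Real.norm_eq_abs, sq_abs,
    real_inner_comm u w]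
  have h1 : ‖u‖ ^ 2 ≤ 1 := pow_le_one₀ (norm_nonneg _) hu
  have h2 : (η * inner ℝ u w) ^ 2 * ‖u‖ ^ 2 ≤ η * inner ℝ u w ^ 2 := by
    have : η * ‖u‖ ^ 2 ≤ 1 := mul_le_one₀ hη1 (sq_nonneg _) h1
    have h3 : 0 ≤ η * inner ℝ u w ^ 2 := by positivity
    nlinarith
  nlinarith

lemma iota_norm (hη : 0 ≤ η) (hη1 : η ≤ 1) (hv : ∀ t, ‖v t‖ ≤ 1) (t : ℕ) (w : H d) :
    η * ‖iota N η v t w‖ ^ 2 ≤ ‖w‖ ^ 2 := by
  induction t generalizing w with
  | zero => simp [iota]
  | succ t ih =>
    have h0 : inner ℝ (iota N η v t (w - (η * inner ℝ (v t) w) • v t)) (e' N t) = 0 := by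
      rw [inner_sum']
      refine sum_eq_zero fun i _ => ?_
      rw [e'_apply]
      split_ifs with h
      · rw [iota_mem t _ i h.ge, zero_mul]
      · simp
    rw [iota_succ, norm_add_sq_real, real_inner_smul_right, h0, norm_smul, mul_pow,
      Real.norm_eq_abs, sq_abs]
    have h1 := ih (w - (η * inner ℝ (v t) w) • v t)
    have h2 := norm_T hη hη1 (hv t) w
    have h3 : ‖e' N t‖ ^ 2 ≤ 1 := pow_le_one₀ (norm_nonneg _) (norm_e'_le t)
    have h4 : η * inner ℝ (v t) w ^ 2 * ‖e' N t‖ ^ 2 ≤ η * inner ℝ (v t) w ^ 2 :=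
      mul_le_of_le_one_right (by positivity) h3
    nlinarith

noncomputable def XX (N : ℕ) (η : ℝ) (v : ℕ → H d) (t : ℕ) : H N →ₗ[ℝ] H d :=
  LinearMap.adjoint (iota N η v t)

lemma inner_XX (t : ℕ) (w : H d) (o : H N) :
    inner ℝ w (XX N η v t o) = inner ℝ (iota N η v t w) o := LinearMap.adjoint_inner_right _ _ _

lemma XX_zero (o : H N) : XX N η v 0 o = 0 := by simp [XX, iota]

lemma XX_succ (t : ℕ) (o : H N) : XX N η v (t + 1) o
    = XX N η v t o + (inner ℝ (e' N t) o - η * inner ℝ (v t) (XX N η v t o)) • v t := by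
  refine ext_inner_left ℝ fun w => ?_
  rw [inner_XX, iota_succ, inner_add_left, ← inner_XX, inner_add_right, inner_sub_left,
    real_inner_smul_left, real_inner_smul_left, real_inner_smul_right, real_inner_comm (v t) w]
  ring

lemma XX_e (t : ℕ) (j : Fin N) (h : t ≤ j.val) : XX N η v t (e j) = 0 := by
  refine ext_inner_left ℝ fun w => ?_
  rw [inner_XX, real_inner_comm, inner_e, iota_mem t w j h, inner_zero_right]

lemma energy (hη : 0 ≤ η) (hη1 : η ≤ 1) (hv : ∀ t, ‖v t‖ ≤ 1) (j : Fin N) (t : ℕ) :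
    η * ∑ s ∈ range t, inner ℝ (v s) (XX N η v s (e j)) ^ 2 + ‖XX N η v t (e j)‖ ^ 2
      ≤ if j.val < t then 1 else 0 := by
  induction t with
  | zero => simp [XX_zero]
  | succ t ih =>
    rw [sum_range_succ, XX_succ, real_inner_comm (e j), inner_e, e'_apply]
    by_cases h : j.val = t
    · rw [if_neg (by omega)] at ih
      rw [XX_e t j h.ge] at ih ⊢
      rw [if_pos h, if_pos (by omega)]
      have : ‖v t‖ ^ 2 ≤ 1 := pow_le_one₀ (norm_nonneg _) (hv t)
      simp at ih ⊢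
      linarith
    · have e1 : (if j.val < t + 1 then (1 : ℝ) else 0) = if j.val < t then 1 else 0 := by
        split_ifs <;> first | rfl | omega
      rw [if_neg h, e1, zero_sub, neg_smul, ← sub_eq_add_neg]
      have := norm_T hη hη1 (hv t) (XX N η v t (e j))
      linarith

lemma XX_norm (hη : 0 < η) (hη1 : η ≤ 1) (hv : ∀ t, ‖v t‖ ≤ 1) (t : ℕ) (o : H N) :
    η * ‖XX N η v t o‖ ^ 2 ≤ ‖(LinearMap.range (iota N η v t)).starProjection o‖ ^ 2 := by
  set x := XX N η v t o with hx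
  set y := (LinearMap.range (iota N η v t)).starProjection o
  have h1 : ‖x‖ ^ 2 = inner ℝ y (iota N η v t x) := by
    rw [inner_proj _ o (LinearMap.mem_range_self _ x), real_inner_comm, ← inner_XX, ← hx,
      real_inner_self_eq_norm_sq]
  have h2 := real_inner_le_norm y (iota N η v t x)
  have h3 := iota_norm (N := N) hη.le hη1 hv t x
  rcases eq_or_lt_of_le (sq_nonneg ‖x‖) with h | h
  · rw [← h, mul_zero]; positivity
  have h4 : (‖x‖ ^ 2) ^ 2 ≤ (‖y‖ * ‖iota N η v t x‖) ^ 2 := by gcongr; linarith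
  refine le_of_mul_le_mul_right ?_ h
  nlinarith [mul_le_mul_of_nonneg_left h3 (sq_nonneg ‖y‖)]

noncomputable def ell (N : ℕ) (η : ℝ) (v : ℕ → H d) (i : Fin N) (o : H N) : ℝ :=
  η * inner ℝ (v i) (XX N η v i o)

lemma pack_pred {a : Fin N → ℝ} (ha : ∀ i, 0 ≤ a i) {ρ : ℝ} (hρ : 0 < ρ) (hρ1 : ρ ≤ 1)
    (hv : ∀ t, ‖v t‖ ≤ 1) :
    Pack a (∑ i, a i) (fun o => ∀ i, |ell N (ρ ^ 2 / 32) v i o| ≤ ρ / 2) := by
  set η := ρ ^ 2 / 32 with hη
  have η0 : 0 < η := by positivity
  have η1 : η ≤ 1 := by rw [hη]; nlinarith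
  let B : Fin N → H N →L[ℝ] H N := fun i =>
    (innerSL ℝ (η • iota N η v i (v i))).smulRight (e i)
  have hB : ∀ i o, ‖B i o‖ = |ell N η v i o| := by
    intro i o
    simp only [B, ContinuousLinearMap.smulRight_apply, innerSL_apply_apply, norm_smul, norm_e,
      mul_one, Real.norm_eq_abs, real_inner_smul_left, ell, inner_XX]
  have h1 : ∀ i, hw 1 (B i) ≤ η := by
    intro i
    have e1 : hw 1 (B i) = η * (η * ‖iota N η v i (v i)‖ ^ 2) := by
      unfold hw
      rw [EuclideanSpace.real_norm_sq_eq, mul_sum, mul_sum]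
      refine sum_congr rfl fun j _ => ?_
      rw [hB, sq_abs, ell, inner_XX, real_inner_comm, inner_e]
      simp; ring
    rw [e1]
    exact mul_le_of_le_one_right η0.le ((iota_norm η0.le η1 hv i _).trans
      (pow_le_one₀ (norm_nonneg _) (hv i)))
  have P := Pack.all ha univ (κ := fun i => cost a (B i, ρ / 2))
    (P := fun i o => ‖B i o‖ ≤ ρ / 2) fun i _ =>
      Pack.single (B i) (by positivity) (by linarith [h1 i])
  refine P.mono ?_ fun o ho i => by rw [← hB]; exact ho i (mem_univ _)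
  have h2 : ∑ i, hw a (B i) ≤ η * ∑ j, a j := by
    unfold hw
    rw [sum_comm, mul_sum]
    refine sum_le_sum fun j _ => ?_
    rw [← mul_sum, mul_comm η]
    refine mul_le_mul_of_nonneg_left ?_ (ha j)
    have := energy η0.le η1 hv j N
    rw [if_pos j.2, sum_range (fun s => inner ℝ (v s) (XX N η v s (e j)) ^ 2)] at this
    simp only [hB, sq_abs, ell, mul_pow]
    rw [← mul_sum]
    nlinarith [sq_nonneg ‖XX N η v N (e j)‖]
  calc ∑ i, cost a (B i, ρ / 2) ≤ ∑ i, hw a (B i) * η / (ρ / 2) ^ 4 := by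
        refine sum_le_sum fun i _ => ?_
        unfold cost
        have := hw_nn ha (B i)
        have := h1 i
        gcongr
    _ = (∑ i, hw a (B i)) * η / (ρ / 2) ^ 4 := by rw [← sum_div, ← sum_mul]
    _ ≤ (η * ∑ j, a j) * η / (ρ / 2) ^ 4 := by gcongr
    _ = (∑ j, a j) / 64 := by rw [hη]; field_simp; ring
    _ ≤ _ := by linarith [sum_nonneg fun i (_ : i ∈ univ) => ha i]

lemma pack_norm {a : Fin N → ℝ} (ha : ∀ i, 0 < a i) (hη : 0 < η) (hη1 : η ≤ 1)
    (hv : ∀ t, ‖v t‖ ≤ 1) :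
    Pack a (8 * ∑ i, a i) (fun o => ∀ t, t ≤ N → η * ‖XX N η v t o‖ ^ 2 ≤ 162500 * d) := by
  obtain ⟨m, hm, hma⟩ : ∃ m : ℝ, 0 < m ∧ ∀ i, m ≤ a i := by
    refine ⟨1 / (1 + ∑ i, 1 / a i), ?_, fun i => ?_⟩
    · have : 0 ≤ ∑ i, 1 / a i := sum_nonneg fun i _ => (one_div_pos.2 (ha i)).le
      positivity
    · have h1 := single_le_sum (f := fun i => 1 / a i) (fun i _ => (one_div_pos.2 (ha i)).le)
        (mem_univ i)
      rw [one_div_le (by linarith [one_div_pos.2 (ha i)]) (ha i)]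
      linarith
  obtain ⟨K, hK⟩ := pow_unbounded_of_one_lt ((∑ i, a i) / m) (by norm_num : (1 : ℝ) < 2)
  have hK' : ∀ i, m ≤ a i ∧ a i ≤ m * 2 ^ (K + 1) := by
    refine fun i => ⟨hma i, ?_⟩
    have h1 := single_le_sum (f := a) (fun i _ => (ha i).le) (mem_univ i)
    rw [div_lt_iff₀ hm] at hK
    have : (0 : ℝ) < 2 ^ K * m := by positivity
    rw [pow_succ]; linarith
  let U : ℕ → Submodule ℝ (H N) := fun t => LinearMap.range (iota N η v t)
  have P := Pack.all (fun i => (ha i).le) (range (K + 1)) fun k _ =>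
    level (fun i => (ha i).le) (lam := m * 2 ^ k) (by positivity) U
      (by rintro t _ ⟨w, rfl⟩; exact iota_mem t w)
      (by
        rintro t _ ⟨w, rfl⟩
        refine ⟨_, ⟨w - (η * inner ℝ (v t) w) • v t, rfl⟩, fun i hi => ?_⟩
        rw [iota_succ, PiLp.add_apply, PiLp.smul_apply, e'_apply, if_neg (by omega)]
        simp) N
  refine P.mono ?_ fun o ho t ht => ?_
  · simp only [mul_sum]
    rw [sum_comm]
    refine sum_le_sum fun j _ => ?_
    have h1 := tel_sum (x := a j / m) (div_pos (ha j) hm).le (K + 1)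
    refine le_trans ?_ (mul_le_of_le_one_right (by linarith [ha j]) h1)
    rw [mul_sum]
    refine sum_le_sum fun k _ => ?_
    rw [div_div]
    have hl : 0 < m * 2 ^ k := by positivity
    generalize m * 2 ^ k = lam at *
    obtain ⟨D, hD⟩ : ∃ D, a j = lam * D := ⟨a j / lam, by field_simp⟩
    have D0 : 0 < D := (mul_pos_iff_of_pos_left hl).1 (hD ▸ ha j)
    rw [hD, mul_div_cancel_left₀ _ hl.ne', mul_comm 8, mul_assoc, mul_assoc]
    refine mul_le_mul_of_nonneg_left ?_ hl.le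
    unfold tel
    rw [← mul_div_assoc, ← mul_div_assoc, ← mul_div_assoc,
      div_le_div_iff₀ (by positivity) (by positivity)]
    have : (1 + D) * (2 + D) ≤ 4 * (1 + D ^ 2) := by nlinarith [sq_nonneg (D - 1)]
    nlinarith [mul_le_mul_of_nonneg_left this (sq_nonneg D)]
  · refine (XX_norm hη hη1 hv t o).trans
      ((spectral (U t) a hm K hK' o fun k hk => ho k hk t ht).trans ?_)
    have : Module.finrank ℝ (U t) ≤ d :=
      (LinearMap.finrank_range_le _).trans (by simp)
    gcongr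

lemma minimax (K : Set (H N)) (hK : Convex ℝ K) {s : ℝ}
    (h : ∀ a : Fin N → ℝ, (∀ i, 0 < a i) → ∃ p : H N → ℝ, Integrable p ∧ (∀ x, 0 ≤ p x) ∧
      (∀ x, p (-x) = p x) ∧ ∫ x, p x = 1 ∧ (∀ x, p x ≠ 0 → x ∈ K) ∧
      ∑ i, a i * ∫ x, |p (x + s • e i) - p (x - s • e i)| ≤ (∑ i, a i) / 6) :
    ∃ p : H N → ℝ, Integrable p ∧ (∀ x, 0 ≤ p x) ∧
      (∀ x, p (-x) = p x) ∧ ∫ x, p x = 1 ∧ (∀ x, p x ≠ 0 → x ∈ K) ∧
      ∀ i, ∫ x, |p (x + s • e i) - p (x - s • e i)| ≤ 1 / 3 := by
  by_contra hcon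
  let D : Set (Fin N → ℝ) := {y | ∃ p : H N → ℝ, Integrable p ∧ (∀ x, 0 ≤ p x) ∧
      (∀ x, p (-x) = p x) ∧ ∫ x, p x = 1 ∧ (∀ x, p x ≠ 0 → x ∈ K) ∧
      ∀ i, ∫ x, |p (x + s • e i) - p (x - s • e i)| ≤ y i}
  let O : Set (Fin N → ℝ) := Set.pi Set.univ fun _ => Set.Iio (1 / 3)
  have hO : Convex ℝ O := convex_pi fun _ _ => convex_Iio _
  have hO' : IsOpen O := isOpen_set_pi Set.finite_univ fun _ _ => isOpen_Iio
  have hD : Convex ℝ D := by
    rintro y ⟨p, p1, p2, p3, p4, p5, p6⟩ y' ⟨q, q1, q2, q3, q4, q5, q6⟩ α β hα hβ hab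
    refine ⟨fun x => α * p x + β * q x, (p1.const_mul _).add (q1.const_mul _),
      fun x => add_nonneg (mul_nonneg hα (p2 x)) (mul_nonneg hβ (q2 x)),
      fun x => by simp only [p3, q3], ?_, fun x hx => ?_, fun i => ?_⟩
    · rw [integral_add (p1.const_mul _) (q1.const_mul _), integral_const_mul, integral_const_mul,
        p4, q4]; linarith
    · by_cases hp : p x = 0
      · exact q5 x fun hq => hx (by simp [hp, hq])
      · exact p5 x hp
    · have i1 : Integrable fun x => |p (x + s • e i) - p (x - s • e i)| :=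
        ((p1.comp_add_right _).sub (p1.comp_sub_right _)).abs
      have i2 : Integrable fun x => |q (x + s • e i) - q (x - s • e i)| :=
        ((q1.comp_add_right _).sub (q1.comp_sub_right _)).abs
      have := integral_mono_of_nonneg (μ := (volume : Measure (H N)))
        (f := fun x => |α * p (x + s • e i) + β * q (x + s • e i)
          - (α * p (x - s • e i) + β * q (x - s • e i))|)
        (g := fun x => α * |p (x + s • e i) - p (x - s • e i)|
          + β * |q (x + s • e i) - q (x - s • e i)|)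
        (Filter.Eventually.of_forall fun x => abs_nonneg _)
        ((i1.const_mul _).add (i2.const_mul _))
        (Filter.Eventually.of_forall fun x => by
          simp only
          have := abs_add_le (α * (p (x + s • e i) - p (x - s • e i)))
            (β * (q (x + s • e i) - q (x - s • e i)))
          rw [abs_mul, abs_mul, abs_of_nonneg hα, abs_of_nonneg hβ] at this
          refine le_trans (le_of_eq ?_) this
          congr 1; ring)
      rw [integral_add (i1.const_mul _) (i2.const_mul _), integral_const_mul,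
        integral_const_mul] at this
      refine this.trans ?_
      simp only [Pi.add_apply, Pi.smul_apply, smul_eq_mul]
      gcongr
      · exact p6 i
      · exact q6 i
  have hdisj : Disjoint O D := by
    rw [Set.disjoint_left]
    rintro y hy ⟨p, p1, p2, p3, p4, p5, p6⟩
    exact hcon ⟨p, p1, p2, p3, p4, p5, fun i => (p6 i).trans (hy i trivial).le⟩
  obtain ⟨f, u, f1, f2⟩ := geometric_hahn_banach_open hO hO' hD hdisj
  let a : Fin N → ℝ := fun i => f (Pi.single i 1)
  have hf : ∀ y, f y = ∑ i, a i * y i := by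
    intro y
    conv_lhs => rw [pi_eq_sum_univ' y]
    simp [a, map_sum, mul_comm]
  have u0 : 0 < u := by simpa using f1 0 (fun i _ => by norm_num)
  have a0 : ∀ i, 0 ≤ a i := by
    intro i
    by_contra hi
    push Not at hi
    have := f1 ((u / a i) • Pi.single i 1) (fun j _ => by
      have : u / a i < 0 := div_neg_of_pos_of_neg u0 hi
      simp only [Pi.smul_apply, Pi.single_apply, smul_eq_mul, Set.mem_Iio]
      split_ifs <;> linarith)
    rw [map_smul, smul_eq_mul, div_mul_cancel₀ _ hi.ne] at this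
    exact lt_irrefl _ this
  have a1 := f1 (fun _ => 1 / 4) (fun i _ => by norm_num)
  rw [hf, ← sum_mul] at a1
  obtain ⟨p, p1, p2, p3, p4, p5, p6⟩ := h (fun i => a i + u / (N + 1))
    (fun i => by have := a0 i; positivity)
  have a2 := f2 _ ⟨p, p1, p2, p3, p4, p5, fun i => le_rfl⟩
  rw [hf] at a2
  have a3 : ∑ i, a i * ∫ x, |p (x + s • e i) - p (x - s • e i)|
      ≤ ∑ i, (a i + u / (N + 1)) * ∫ x, |p (x + s • e i) - p (x - s • e i)| :=
    sum_le_sum fun i _ => mul_le_mul_of_nonneg_right (le_add_of_nonneg_right (by positivity))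
      (integral_nonneg fun _ => abs_nonneg _)
  rw [sum_add_distrib, sum_const, card_univ, Fintype.card_fin, nsmul_eq_mul] at p6
  have a4 : (N : ℝ) * (u / (N + 1)) ≤ u := by
    rw [← mul_div_assoc, div_le_iff₀ (by positivity)]; nlinarith
  linarith

theorem signing (N : ℕ) (v : ℕ → H d) (hv : ∀ t, ‖v t‖ ≤ 1) :
    ∃ ε : ℕ → ℝ, (∀ i, ε i = 1 ∨ ε i = -1) ∧
      ∀ t, t ≤ N → ‖∑ i ∈ range t, ε i • v i‖ ^ 2 ≤ 10 ^ 21 * d := by
  obtain ⟨ρ, hρ⟩ : ∃ ρ : ℝ, ρ = 1 / 3000 := ⟨_, rfl⟩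
  have ρ0 : 0 < ρ := by rw [hρ]; norm_num
  have ρ1 : ρ ≤ 1 := by rw [hρ]; norm_num
  set η := ρ ^ 2 / 32 with hη
  have η0 : 0 < η := by positivity
  have η1 : η ≤ 1 := by rw [hη]; nlinarith
  let K : Set (H N) := {o | (∀ t, t ≤ N → ‖XX N η v t o‖ ≤ √(162500 * d / η)) ∧
    ∀ i, |ell N η v i o| ≤ ρ / 2}
  have hK : Convex ℝ K := by
    rintro x ⟨x1, x2⟩ y ⟨y1, y2⟩ α β hα hβ hab
    refine ⟨fun t ht => ?_, fun i => ?_⟩
    · rw [map_add, map_smul, map_smul]
      refine (norm_add_le _ _).trans ?_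
      rw [norm_smul, norm_smul, Real.norm_of_nonneg hα, Real.norm_of_nonneg hβ]
      calc _ ≤ α * √(162500 * d / η) + β * √(162500 * d / η) := by
            gcongr
            · exact x1 t ht
            · exact y1 t ht
        _ = _ := by rw [← add_mul, hab, one_mul]
    · have e1 : ell N η v i (α • x + β • y) = α * ell N η v i x + β * ell N η v i y := by
        simp only [ell, map_add, map_smul, inner_add_right, real_inner_smul_right]; ring
      rw [e1]
      refine (abs_add_le _ _).trans ?_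
      rw [abs_mul, abs_mul, abs_of_nonneg hα, abs_of_nonneg hβ]
      calc _ ≤ α * (ρ / 2) + β * (ρ / 2) := by
            gcongr
            · exact x2 i
            · exact y2 i
        _ = _ := by rw [← add_mul, hab, one_mul]
  obtain ⟨p, p1, p2, p3, p4, p5, p6⟩ := minimax K hK (s := 3 * ρ) (by
    intro a ha
    obtain ⟨S, S1, S2, S3⟩ := (pack_norm ha η0 η1 hv).and (fun i => (ha i).le)
      (pack_pred (fun i => (ha i).le) ρ0 ρ1 hv)
    obtain ⟨p, p1, p2, p3, p4, p5, p6⟩ := density S S1 (s := 3 * ρ) (τ := 1 / 24)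
      (by rw [hρ]; norm_num) (by norm_num)
    refine ⟨p, p1, p2, p3, p4, fun x hx => ?_, ?_⟩
    · obtain ⟨h1, h2⟩ := S3 x (p5 x hx)
      refine ⟨fun t ht => Real.le_sqrt_of_sq_le ?_, h2⟩
      rw [le_div_iff₀ η0, mul_comm]
      exact h1 t ht
    · refine (sum_le_sum fun i _ => mul_le_mul_of_nonneg_left (p6 i) (ha i).le).trans ?_
      have e1 : ∑ i, a i * ∑ c ∈ S, ‖c.1 (e i)‖ ^ 2 * hw 1 c.1 / c.2 ^ 4 = ∑ c ∈ S, cost a c := by
        simp only [mul_sum]
        rw [sum_comm]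
        refine sum_congr rfl fun c _ => ?_
        unfold cost
        generalize hw 1 c.1 = h1
        rw [hw, sum_mul, sum_div]
        refine sum_congr rfl fun i _ => ?_
        ring
      have e2 : ∑ i, a i * (2 * (1 / 24) + (3 * ρ) ^ 2 / (1 / 24) *
            (1 / 2 + 308 * ∑ c ∈ S, ‖c.1 (e i)‖ ^ 2 * hw 1 c.1 / c.2 ^ 4))
          = (1 / 12 + 108 * ρ ^ 2) * ∑ i, a i + 66528 * ρ ^ 2 * ∑ c ∈ S, cost a c := by
        rw [← e1, mul_sum, mul_sum, ← sum_add_distrib]
        refine sum_congr rfl fun i _ => ?_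
        ring
      rw [e2, hρ]
      have := sum_nonneg fun i (_ : i ∈ univ) => (ha i).le
      linarith)
  obtain ⟨z, hz, -, hz'⟩ := KL ρ ρ0 (ell N η v)
    (by
      intro i j hij x t
      simp only [ell, map_add, map_smul, XX_e i j hij, smul_zero, add_zero])
    N le_rfl Unit Unit (fun _ => p) (fun _ => ()) {q | q.1 ∈ K}
    (hK.is_linear_preimage (f := Prod.fst) (LinearMap.fst ℝ (H N) Unit).isLinear)
    (fun _ => p1) (fun _ => p2) (fun _ => p3) (by simpa using p4) (fun _ => p5)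
    (fun i _ => by simpa using p6 i) (fun q hq i _ => hq.2 i)
  let ε : ℕ → ℝ := fun t => if h : t < N then (z ⟨t, h⟩ - ell N η v ⟨t, h⟩ z) / ρ else 1
  have hX : ∀ t, t ≤ N → XX N η v t z = ρ • ∑ i ∈ range t, ε i • v i := by
    intro t
    induction t with
    | zero => intro _; simp [XX_zero]
    | succ t ih =>
      intro ht
      have ht' : t < N := ht
      rw [XX_succ, sum_range_succ, smul_add, ← ih ht'.le, smul_smul]
      congr 2
      simp only [ε, e', dif_pos ht', inner_e, ell]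
      field_simp
  refine ⟨ε, fun i => ?_, fun t ht => ?_⟩
  · simp only [ε]
    split_ifs with h
    · rcases hz' ⟨i, h⟩ h with h' | h'
      · left; rw [h']; field_simp; ring
      · right; rw [h']; field_simp; ring
    · exact Or.inl rfl
  · have h1 : ‖XX N η v t z‖ ≤ √(162500 * d / η) := hz.1 t ht
    have h2 : ‖XX N η v t z‖ ^ 2 ≤ 162500 * d / η := by
      rw [← Real.sq_sqrt (show 0 ≤ 162500 * d / η by positivity)]; gcongr
    rw [hX t ht, norm_smul, mul_pow, Real.norm_eq_abs, sq_abs, hη, hρ] at h2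
    have : (0 : ℝ) ≤ d := Nat.cast_nonneg _
    norm_num at h2 ⊢
    linarith

end Vale.Agent.P262
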