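import Vale.Agent.P262.Chain

/-! Weighted projections onto a moving subspace. -/

namespace Vale.Agent.P262

open Finset

variable {N : ℕ}

noncomputable def dg (w : Fin N → ℝ) : H N →L[ℝ] H N :=
  LinearMap.toContinuousLinearMap
    { toFun := fun x => WithLp.toLp 2 fun i => w i * x i
      map_add' := fun x y => by ext i; simp [mul_add]
      map_smul' := fun c x => by ext i; simp; ring }

@[simp] lemma dg_apply (w : Fin N → ℝ) (x : H N) (i : Fin N) : dg w x i = w i * x i := rfl

lemma dg_e (w : Fin N → ℝ) (i : Fin N) : dg w (e i) = w i • e i := by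
  ext j
  by_cases h : j = i <;> simp [e_apply, h]

lemma inner_sum' (x y : H N) : inner ℝ x y = ∑ i, x i * y i := by
  simp [PiLp.inner_apply, mul_comm]

def Ec (N t : ℕ) : Submodule ℝ (H N) where
  carrier := {x | ∀ i : Fin N, t ≤ i.val → x i = 0}
  add_mem' ha hb i hi := by simp [ha i hi, hb i hi]
  zero_mem' i _ := rfl
  smul_mem' c x hx i hi := by simp [hx i hi]

lemma Ec_mono {s t : ℕ} (h : s ≤ t) : Ec N s ≤ Ec N t := fun _ hx i hi => hx i (h.trans hi)

lemma inner_proj (K : Submodule ℝ (H N)) (x : H N) {w : H N} (hw : w ∈ K) :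
    inner ℝ (K.starProjection x) w = inner ℝ x w := by
  have := K.starProjection_inner_eq_zero x w hw
  rw [inner_sub_left] at this
  linarith

lemma proj_symm (K : Submodule ℝ (H N)) (i j : Fin N) :
    K.starProjection (e i) j = K.starProjection (e j) i := by
  rw [← inner_e j, ← inner_e i, ← inner_proj K (e j) (K.starProjection_apply_mem _),
    ← inner_proj K (e i) (K.starProjection_apply_mem _), real_inner_comm]

lemma nested_norm {K L : Submodule ℝ (H N)} (h : K ≤ L) (x : H N) :
    ‖L.starProjection x - K.starProjection x‖ ^ 2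
      = ‖L.starProjection x‖ ^ 2 - ‖K.starProjection x‖ ^ 2 := by
  rw [norm_sub_sq_real, inner_proj L x (h (K.starProjection_apply_mem _)),
    ← inner_proj K x (K.starProjection_apply_mem _), real_inner_self_eq_norm_sq]
  ring

lemma proj_inf {K L : Submodule ℝ (H N)} (h : K ≤ L) (x : H N) :
    (L ⊓ Kᗮ).starProjection x = L.starProjection x - K.starProjection x := by
  refine Submodule.eq_starProjection_of_mem_of_inner_eq_zero ⟨?_, ?_⟩ ?_
  · exact L.sub_mem (L.starProjection_apply_mem _) (h (K.starProjection_apply_mem _))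
  · intro u hu
    rw [real_inner_comm, inner_sub_left, inner_proj L x (h hu), inner_proj K x hu, sub_self]
  · rintro w ⟨h1, h2⟩
    rw [inner_sub_left, inner_sub_left, inner_proj L x h1, h2 _ (K.starProjection_apply_mem _)]
    ring

noncomputable def GG (D : Fin N → ℝ) (i : Fin N) : ℝ := √(1 + D i ^ 2)

lemma GG_pos (D : Fin N → ℝ) (i : Fin N) : 0 < GG D i := Real.sqrt_pos.2 (by positivity)

lemma GG_sq (D : Fin N → ℝ) (i : Fin N) : GG D i ^ 2 = 1 + D i ^ 2 := Real.sq_sqrt (by positivity)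

noncomputable def sand (D : Fin N → ℝ) (Q : H N →L[ℝ] H N) : H N →L[ℝ] H N :=
  dg (fun i => D i / GG D i) ∘L Q ∘L dg (fun i => 1 / GG D i)

noncomputable def Uh (D : Fin N → ℝ) (U : Submodule ℝ (H N)) : Submodule ℝ (H N) :=
  U.map (dg (GG D) : H N →ₗ[ℝ] H N)

noncomputable def Bop (D : Fin N → ℝ) (U : Submodule ℝ (H N)) : H N →L[ℝ] H N :=
  sand D (Uh D U).starProjection

lemma hw_sand (D : Fin N → ℝ) (Q : H N →L[ℝ] H N) (hQ : ∀ i j, Q (e i) j = Q (e j) i) :
    hw (fun i => 1 + D i) (sand D Q)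
      ≤ 3 / 2 * ∑ j, D j ^ 2 / (1 + D j ^ 2) * ‖Q (e j)‖ ^ 2 := by
  unfold hw
  have h1 : ∀ i, (1 + D i) * ‖sand D Q (e i)‖ ^ 2
      ≤ 3 / 2 * ∑ j, D j ^ 2 / (1 + D j ^ 2) * Q (e j) i ^ 2 := by
    intro i
    have e1 : ‖sand D Q (e i)‖ ^ 2
        = 1 / (1 + D i ^ 2) * ∑ j, D j ^ 2 / (1 + D j ^ 2) * Q (e j) i ^ 2 := by
      rw [EuclideanSpace.real_norm_sq_eq, mul_sum]
      refine sum_congr rfl fun j _ => ?_
      simp only [sand, ContinuousLinearMap.comp_apply, dg_e, map_smul, PiLp.smul_apply, dg_apply,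
        smul_eq_mul, hQ i j]
      rw [← GG_sq, ← GG_sq]
      ring
    rw [e1, ← mul_assoc]
    refine mul_le_mul_of_nonneg_right ?_ (sum_nonneg fun j _ => by positivity)
    rw [mul_one_div, div_le_iff₀ (by positivity)]
    nlinarith [sq_nonneg (D i - 1 / 3)]
  refine (sum_le_sum fun i _ => h1 i).trans (le_of_eq ?_)
  rw [← mul_sum, sum_comm]
  congr 1
  refine sum_congr rfl fun j _ => ?_
  rw [EuclideanSpace.real_norm_sq_eq, mul_sum]

lemma hw_nested (D : Fin N → ℝ) {K L : Submodule ℝ (H N)} (h : K ≤ L) :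
    hw (fun i => 1 + D i) (sand D (L.starProjection - K.starProjection))
      ≤ 3 / 2 * (∑ j, D j ^ 2 / (1 + D j ^ 2) * ‖L.starProjection (e j)‖ ^ 2
        - ∑ j, D j ^ 2 / (1 + D j ^ 2) * ‖K.starProjection (e j)‖ ^ 2) := by
  refine (hw_sand D _ fun i j => ?_).trans (le_of_eq ?_)
  · simp [proj_symm L i j, proj_symm K i j]
  · rw [← sum_sub_distrib]
    congr 1
    refine sum_congr rfl fun j _ => ?_
    rw [sub_apply, nested_norm h]; ring

lemma level {a : Fin N → ℝ} (ha : ∀ i, 0 ≤ a i) {lam : ℝ} (hl : 0 < lam)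
    (U : ℕ → Submodule ℝ (H N)) (hU0 : ∀ t, U t ≤ Ec N t)
    (hUs : ∀ t, ∀ u ∈ U (t + 1), ∃ u' ∈ U t, ∀ i : Fin N, i.val < t → u i = u' i) (n : ℕ) :
    Pack a (lam * (2 * ∑ j, (a j / lam) ^ 2 / (1 + (a j / lam) ^ 2)))
      (fun g => ∀ t, t ≤ n → ‖Bop (fun i => a i / lam) (U t) g‖ ^ 2 ≤
        5200 * (1 + hw (fun i => 1 + a i / lam) (Bop (fun i => a i / lam) (U t)))) := by
  set D : Fin N → ℝ := fun i => a i / lam with hD
  have L : Lev a (fun i => 1 + D i) lam :=
    ⟨ha, hl.le, fun i => by have := div_nonneg (ha i) hl.le; simp only [hD]; linarith,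
      fun i => by simp only [hD]; rw [mul_add, mul_div_cancel₀ _ hl.ne']; linarith⟩
  have hUh : ∀ t, Uh D (U t) ≤ Ec N t := by
    rintro t _ ⟨u, hu, rfl⟩ i hi
    simp [hU0 t hu i hi]
  let E' : ℕ → Submodule ℝ (H N) := fun t => Ec N t ⊓ (Uh D (U t))ᗮ
  have hE' : Monotone E' := by
    refine monotone_nat_of_le_succ fun t => ?_
    rintro x ⟨h1, h2⟩
    refine ⟨Ec_mono (Nat.le_succ t) h1, ?_⟩
    rintro _ ⟨u, hu, rfl⟩
    obtain ⟨u', hu', huu⟩ := hUs t u hu
    rw [← h2 _ ⟨u', hu', rfl⟩, inner_sum', inner_sum']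
    refine sum_congr rfl fun i _ => ?_
    rcases lt_or_ge i.val t with h | h
    · simp [huu i h]
    · simp [h1 i h]
  let θ : Fin N → ℝ := fun j => D j ^ 2 / (1 + D j ^ 2)
  have θ0 : ∀ j, 0 ≤ θ j := fun j => by simp only [θ]; positivity
  let cl : Submodule ℝ (H N) → ℝ := fun K => ∑ j, θ j * ‖K.starProjection (e j)‖ ^ 2
  have clm : ∀ K L : Submodule ℝ (H N), K ≤ L → cl K ≤ cl L := by
    intro K L h
    refine sum_le_sum fun j _ => mul_le_mul_of_nonneg_left ?_ (θ0 j)
    have := nested_norm h (e j)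
    nlinarith [sq_nonneg ‖L.starProjection (e j) - K.starProjection (e j)‖]
  have cl0 : ∀ K, 0 ≤ cl K := fun K => sum_nonneg fun j _ => mul_nonneg (θ0 j) (sq_nonneg _)
  have cl1 : ∀ K, cl K ≤ ∑ j, θ j := by
    intro K
    refine sum_le_sum fun j _ => mul_le_of_le_one_right (θ0 j) ?_
    have := K.norm_starProjection_apply_le (e j)
    rw [norm_e] at this
    exact pow_le_one₀ (norm_nonneg _) this
  have key := epochs L (fun t => Bop D (U t)) (fun t => cl (Ec N t) + cl (E' t))
    (fun s t h => add_le_add (clm _ _ (Ec_mono h)) (clm _ _ (hE' h)))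
    (by
      intro s t h
      have e1 : Bop D (U t) - Bop D (U s)
          = sand D ((Ec N t).starProjection - (Ec N s).starProjection)
            - sand D ((E' t).starProjection - (E' s).starProjection) := by
        ext1 g
        simp only [Bop, sand, sub_apply, ContinuousLinearMap.comp_apply, E',
          proj_inf (hUh t), proj_inf (hUh s), map_sub]
        abel
      have k1 := hw_le_two L.w0 (Bop D (U t) - Bop D (U s))
        (sand D ((Ec N t).starProjection - (Ec N s).starProjection))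
      rw [e1, sub_sub_cancel, ← e1] at k1
      have k2 := hw_nested D (Ec_mono (N := N) h)
      have k3 := hw_nested D (hE' h)
      simp only [cl, θ]
      linarith) n 0
  refine key.mono (mul_le_mul_of_nonneg_left ?_ hl.le) ?_
  · have := cl1 (Ec N (0 + n))
    have := cl1 (E' (0 + n))
    have := cl0 (Ec N 0)
    have := cl0 (E' 0)
    simp only [θ, hD] at *
    linarith
  · intro g hg t ht
    refine hg ?_ t (Nat.zero_le _) (by omega)
    have : Bop D (U 0) g = 0 := by
      ext i
      have := hUh 0 ((Uh D (U 0)).starProjection_apply_mem (dg (fun i => 1 / GG D i) g)) i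
        (Nat.zero_le _)
      simp only [Bop, sand, ContinuousLinearMap.comp_apply, dg_apply, this]
      simp
    rw [this]
    have := hw_nn L.w0 (Bop D (U 0))
    simp only [norm_zero]
    linarith

end Vale.Agent.P262
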