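import Vale.Agent.P262.Proj

/-! Spectral resolution of the projection onto a subspace. -/

namespace Vale.Agent.P262

open Finset

variable {N : ℕ}

lemma exists_eig (U : Submodule ℝ (H N)) (q : Fin N → ℝ) :
    ∃ (f : Fin (Module.finrank ℝ U) → H N) (s : Fin (Module.finrank ℝ U) → ℝ),
      (∀ j, f j ∈ U) ∧ (∀ i j, ∑ l, f i l * f j l = if i = j then 1 else 0) ∧
      (∀ i j, ∑ l, q l * (f i l * f j l) = if i = j then s j else 0) ∧
      (∀ u ∈ U, u = ∑ j, inner ℝ (f j) u • f j) := by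
  let T : U →ₗ[ℝ] U := (U.orthogonalProjectionOnto : H N →ₗ[ℝ] U) ∘ₗ
    (dg q : H N →ₗ[ℝ] H N) ∘ₗ U.subtype
  have hT' : ∀ x y : U, inner ℝ (T x) y = ∑ l, q l * ((x : H N) l * (y : H N) l) := by
    intro x y
    have : inner ℝ (T x) y = inner ℝ (U.starProjection (dg q x)) (y : H N) := rfl
    rw [this, inner_proj U _ y.2, inner_sum']
    simp [mul_assoc]
  have hT : T.IsSymmetric := by
    intro x y
    rw [real_inner_comm (T y), hT', hT']
    simp [mul_comm]
  let b := hT.eigenvectorBasis rfl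
  refine ⟨fun j => (b j : H N), hT.eigenvalues rfl, fun j => (b j).2, fun i j => ?_,
    fun i j => ?_, fun u hu => ?_⟩
  · rw [← inner_sum', ← Submodule.coe_inner]
    exact orthonormal_iff_ite.1 b.orthonormal i j
  · rw [← hT', hT.apply_eigenvectorBasis, real_inner_smul_left,
      orthonormal_iff_ite.1 b.orthonormal i j]
    split_ifs with h
    · subst h; simp
    · simp
  · have := congrArg (fun x : U => (x : H N)) (b.sum_repr' ⟨u, hu⟩)
    simp only [AddSubmonoidClass.coe_finsetSum, SetLike.val_smul, Submodule.coe_inner] at this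
    exact this.symm

lemma norm_comb {ι : Type*} [Fintype ι] [DecidableEq ι] (f : ι → H N) (y c : ι → ℝ)
    (h : ∀ i j, inner ℝ (f i) (f j) = if i = j then y j else 0) :
    ‖∑ j, c j • f j‖ ^ 2 = ∑ j, c j ^ 2 * y j := by
  rw [← real_inner_self_eq_norm_sq, sum_inner]
  refine sum_congr rfl fun i _ => ?_
  rw [inner_sum]
  simp only [real_inner_smul_left, real_inner_smul_right, h]
  simp; ring

lemma Bop_norm {ι : Type*} [Fintype ι] [DecidableEq ι] (U : Submodule ℝ (H N)) (D : Fin N → ℝ)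
    (f : ι → H N) (y : ι → ℝ) (hy : ∀ j, 0 ≤ y j)
    (h0 : ∀ j, f j ∈ U) (h1 : ∀ i j, ∑ l, f i l * f j l = if i = j then 1 else 0)
    (h2 : ∀ i j, ∑ l, D l ^ 2 * (f i l * f j l) = if i = j then y j else 0)
    (h3 : ∀ u ∈ U, u = ∑ j, inner ℝ (f j) u • f j) (g : H N) :
    ‖Bop D U g‖ ^ 2 = ∑ j, y j / (1 + y j) ^ 2 * inner ℝ (f j) g ^ 2 := by
  have hG : ∀ i j, inner ℝ (dg (GG D) (f i)) (dg (GG D) (f j))
      = if i = j then 1 + y j else 0 := by
    intro i j
    rw [inner_sum']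
    have : ∀ l, dg (GG D) (f i) l * dg (GG D) (f j) l
        = f i l * f j l + D l ^ 2 * (f i l * f j l) := by
      intro l
      simp only [dg_apply]
      linear_combination (f i l * f j l) * GG_sq D l
    rw [sum_congr rfl fun l _ => this l, sum_add_distrib, h1, h2]
    split_ifs <;> simp
  have hP : (Uh D U).starProjection (dg (fun i => 1 / GG D i) g)
      = ∑ j, (inner ℝ (f j) g / (1 + y j)) • dg (GG D) (f j) := by
    refine Submodule.eq_starProjection_of_mem_of_inner_eq_zero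
      (Submodule.sum_mem _ fun j _ => Submodule.smul_mem _ _ ⟨f j, h0 j, rfl⟩) ?_
    rintro _ ⟨u, hu, rfl⟩
    rw [h3 u hu]
    simp only [ContinuousLinearMap.coe_coe, map_sum, map_smul]
    rw [inner_sum]
    refine sum_eq_zero fun l _ => ?_
    rw [real_inner_smul_right, inner_sub_left, sum_inner]
    simp only [real_inner_smul_left, hG]
    have e1 : inner ℝ (dg (fun i => 1 / GG D i) g) (dg (GG D) (f l)) = inner ℝ (f l) g := by
      rw [inner_sum', inner_sum']
      refine sum_congr rfl fun i _ => ?_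
      have := (GG_pos D i).ne'
      simp only [dg_apply]; field_simp
    have := hy l
    rw [e1]
    simp only [mul_ite, mul_zero, sum_ite_eq', mem_univ, if_true]
    rw [div_mul_cancel₀ _ (by positivity), sub_self, mul_zero]
  have hB : Bop D U g = ∑ j, (inner ℝ (f j) g / (1 + y j)) • dg D (f j) := by
    simp only [Bop, sand, ContinuousLinearMap.comp_apply, hP, map_sum, map_smul]
    refine sum_congr rfl fun j _ => ?_
    congr 1
    ext i
    have := (GG_pos D i).ne'
    simp only [dg_apply]; field_simp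
  rw [hB, norm_comb (fun j => dg D (f j)) y]
  · refine sum_congr rfl fun j _ => ?_
    rw [div_pow]; ring
  · intro i j
    rw [inner_sum', ← h2]
    refine sum_congr rfl fun l _ => ?_
    simp only [dg_apply]; ring

noncomputable def tel (y : ℝ) : ℝ := y / ((1 + y) * (2 + y))

lemma tel_sum {x : ℝ} (hx : 0 ≤ x) (K : ℕ) : ∑ k ∈ range K, tel (x / 2 ^ k) ≤ 1 := by
  have : ∑ k ∈ range K, tel (x / 2 ^ k)
      = ∑ k ∈ range K, ((x / 2 ^ k) / (1 + x / 2 ^ k) - (x / 2 ^ (k + 1)) / (1 + x / 2 ^ (k + 1))) := by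
    refine sum_congr rfl fun k _ => ?_
    rw [show x / 2 ^ (k + 1) = x / 2 ^ k / 2 by rw [pow_succ, div_div]]
    have : 0 ≤ x / 2 ^ k := by positivity
    generalize x / 2 ^ k = y at *
    unfold tel
    field_simp; ring
  rw [this, sum_range_sub' (fun k => (x / 2 ^ k) / (1 + x / 2 ^ k))]
  have h1 : (x / 2 ^ 0) / (1 + x / 2 ^ 0) ≤ 1 := by
    rw [div_le_one (by positivity)]; linarith
  have h2 : 0 ≤ (x / 2 ^ K) / (1 + x / 2 ^ K) := by positivity
  linarith

lemma exists_level {m z : ℝ} (hz : m ≤ z) (K : ℕ) (h : z ≤ m * 2 ^ (K + 1)) :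
    ∃ k, k ≤ K ∧ m * 2 ^ k ≤ z ∧ z ≤ m * 2 ^ (k + 1) := by
  induction K with
  | zero => exact ⟨0, le_rfl, by simpa using hz, h⟩
  | succ K ih =>
    rcases le_total z (m * 2 ^ (K + 1)) with h' | h'
    · obtain ⟨k, hk, hk'⟩ := ih h'
      exact ⟨k, by omega, hk'⟩
    · exact ⟨K + 1, le_rfl, h', h⟩

lemma spectral (U : Submodule ℝ (H N)) (a : Fin N → ℝ) {m : ℝ} (hm : 0 < m) (K : ℕ)
    (ha : ∀ i, m ≤ a i ∧ a i ≤ m * 2 ^ (K + 1)) (g : H N)
    (h : ∀ k ∈ range (K + 1), ‖Bop (fun i => a i / (m * 2 ^ k)) U g‖ ^ 2 ≤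
      5200 * (1 + hw (fun i => 1 + a i / (m * 2 ^ k)) (Bop (fun i => a i / (m * 2 ^ k)) U))) :
    ‖U.starProjection g‖ ^ 2 ≤ 162500 * Module.finrank ℝ U := by
  classical
  obtain ⟨f, s, h0, h1, h2, h3⟩ := exists_eig U (fun l => a l ^ 2)
  have f1 : ∀ j, ∑ l, f j l * f j l = 1 := fun j => by simpa using h1 j j
  have f2 : ∀ j, ∑ l, a l ^ 2 * (f j l * f j l) = s j := fun j => by simpa using h2 j j
  have s1 : ∀ j, m ^ 2 ≤ s j := by
    intro j
    rw [← f2, ← mul_one (m ^ 2), ← f1 j, mul_sum]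
    refine sum_le_sum fun l _ => mul_le_mul_of_nonneg_right ?_ (mul_self_nonneg _)
    exact pow_le_pow_left₀ hm.le (ha l).1 2
  have s2 : ∀ j, s j ≤ (m * 2 ^ (K + 1)) ^ 2 := by
    intro j
    rw [← f2, ← mul_one ((m * 2 ^ (K + 1)) ^ 2), ← f1 j, mul_sum]
    refine sum_le_sum fun l _ => mul_le_mul_of_nonneg_right ?_ (mul_self_nonneg _)
    exact pow_le_pow_left₀ (hm.le.trans (ha l).1) (ha l).2 2
  let z : Fin (Module.finrank ℝ U) → ℝ := fun j => √(s j)
  have zs : ∀ j, z j ^ 2 = s j := fun j => Real.sq_sqrt ((sq_nonneg _).trans (s1 j))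
  have z1 : ∀ j, m ≤ z j := fun j => Real.le_sqrt_of_sq_le (s1 j)
  have z2 : ∀ j, z j ≤ m * 2 ^ (K + 1) := fun j =>
    Real.sqrt_le_iff.2 ⟨by positivity, s2 j⟩
  choose k k1 k2 k3 using fun j => exists_level (z1 j) K (z2 j)
  let x : ℕ → Fin (Module.finrank ℝ U) → ℝ := fun k j => z j / (m * 2 ^ k)
  have x0 : ∀ k j, 0 < x k j := fun k j => div_pos (hm.trans_le (z1 j)) (by positivity)
  have hD : ∀ k i j, ∑ l, (a l / (m * 2 ^ k)) ^ 2 * (f i l * f j l)
      = if i = j then x k j ^ 2 else 0 := by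
    intro k i j
    have : ∑ l, (a l / (m * 2 ^ k)) ^ 2 * (f i l * f j l)
        = (∑ l, a l ^ 2 * (f i l * f j l)) / (m * 2 ^ k) ^ 2 := by
      rw [sum_div]; refine sum_congr rfl fun l _ => ?_; ring
    rw [this, h2]
    split_ifs
    · simp only [x, div_pow, zs]
    · simp
  have hN : ∀ k g, ‖Bop (fun i => a i / (m * 2 ^ k)) U g‖ ^ 2
      = ∑ j, x k j ^ 2 / (1 + x k j ^ 2) ^ 2 * inner ℝ (f j) g ^ 2 := fun k g =>
    Bop_norm U _ f (fun j => x k j ^ 2) (fun j => sq_nonneg _) h0 h1 (hD k) h3 g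
  have hW : ∀ k, hw (fun i => 1 + a i / (m * 2 ^ k)) (Bop (fun i => a i / (m * 2 ^ k)) U)
      ≤ 4 * ∑ j, tel (x k j) := by
    intro k
    unfold hw
    simp only [hN, mul_sum]
    rw [sum_comm]
    refine sum_le_sum fun j _ => ?_
    have e1 : ∑ i, (1 + a i / (m * 2 ^ k)) *
          (x k j ^ 2 / (1 + x k j ^ 2) ^ 2 * inner ℝ (f j) (e i) ^ 2)
        = x k j ^ 2 / (1 + x k j ^ 2) ^ 2 *
          (1 + ∑ i, a i / (m * 2 ^ k) * (f j i * f j i)) := by
      rw [← f1 j, ← sum_add_distrib, f1 j, mul_sum]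
      refine sum_congr rfl fun i _ => ?_
      rw [real_inner_comm, inner_e]; ring
    have e2 : ∑ i, a i / (m * 2 ^ k) * (f j i * f j i) ≤ x k j := by
      have hx := x0 k j
      have : ∑ i, a i / (m * 2 ^ k) * (f j i * f j i) ≤
          ∑ i, (x k j / 2 * (f j i * f j i)
            + (a i / (m * 2 ^ k)) ^ 2 * (f j i * f j i) / (2 * x k j)) := by
        refine sum_le_sum fun i _ => ?_
        rw [mul_div_right_comm, ← add_mul]
        refine mul_le_mul_of_nonneg_right ?_ (mul_self_nonneg _)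
        generalize a i / (m * 2 ^ k) = D
        rw [div_add_div _ _ (by norm_num) (by positivity), le_div_iff₀ (by positivity)]
        nlinarith [sq_nonneg (D - x k j)]
      rw [sum_add_distrib, ← mul_sum, ← sum_div, f1, hD k j j, if_pos rfl] at this
      refine this.trans (le_of_eq ?_)
      field_simp; ring
    rw [e1]
    have hx := x0 k j
    generalize x k j = y at *
    calc y ^ 2 / (1 + y ^ 2) ^ 2 * (1 + ∑ i, a i / (m * 2 ^ k) * (f j i * f j i))
        ≤ y ^ 2 / (1 + y ^ 2) ^ 2 * (1 + y) := by gcongr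
      _ ≤ 4 * tel y := by
        unfold tel
        rw [div_mul_eq_mul_div, ← mul_div_assoc, div_le_div_iff₀ (by positivity) (by positivity)]
        have a1 : (1 + y) ^ 2 ≤ 2 * (1 + y ^ 2) := by nlinarith [sq_nonneg (y - 1)]
        have a2 : y * (2 + y) ≤ 2 * (1 + y ^ 2) := by nlinarith [sq_nonneg (y - 1)]
        have a3 : (1 + y) ^ 2 * (y * (2 + y)) ≤ (2 * (1 + y ^ 2)) * (2 * (1 + y ^ 2)) := by
          gcongr
        nlinarith [mul_le_mul_of_nonneg_left a3 hx.le]
  have hP : ‖U.starProjection g‖ ^ 2 = ∑ j, inner ℝ (f j) g ^ 2 := by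
    rw [h3 _ (U.starProjection_apply_mem g), norm_comb f (fun _ => 1) _
      (fun i j => by rw [inner_sum', h1])]
    refine sum_congr rfl fun j _ => ?_
    rw [real_inner_comm, inner_proj U g (h0 j), real_inner_comm, mul_one]
  set T := univ.image k with hT
  have hT1 : T ⊆ range (K + 1) := by
    intro c hc
    obtain ⟨j, -, rfl⟩ := mem_image.1 hc
    exact mem_range.2 (Nat.lt_succ_of_le (k1 j))
  have hT2 : (T.card : ℝ) ≤ Module.finrank ℝ U := by
    exact_mod_cast card_image_le.trans (by simp)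
  have t0 : ∀ k j, 0 ≤ tel (x k j) := fun k j => by
    have := x0 k j
    unfold tel; positivity
  have step1 : ∑ j, inner ℝ (f j) g ^ 2
      ≤ 25 / 4 * ∑ c ∈ T, ‖Bop (fun i => a i / (m * 2 ^ c)) U g‖ ^ 2 := by
    simp only [hN]
    rw [sum_comm, mul_sum]
    refine sum_le_sum fun j _ => ?_
    have e1 := single_le_sum (f := fun c => x c j ^ 2 / (1 + x c j ^ 2) ^ 2 * inner ℝ (f j) g ^ 2)
      (s := T) (fun c _ => by positivity) (mem_image_of_mem k (mem_univ j))
    refine le_trans ?_ (mul_le_mul_of_nonneg_left e1 (by norm_num))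
    rw [← mul_assoc]
    refine le_mul_of_one_le_left (sq_nonneg _) ?_
    have b1 : 1 ≤ x (k j) j := by
      simp only [x]; rw [one_le_div (by positivity)]; exact k2 j
    have b2 : x (k j) j ≤ 2 := by
      simp only [x]; rw [div_le_iff₀ (by positivity)]
      have := k3 j
      rw [pow_succ] at this; linarith
    generalize x (k j) j = y at *
    rw [← mul_div_assoc, one_le_div (by positivity)]
    have c1 : 1 ≤ y ^ 2 := by nlinarith
    have c2 : y ^ 2 ≤ 4 := by nlinarith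
    nlinarith
  have step2 : ∑ c ∈ T, ‖Bop (fun i => a i / (m * 2 ^ c)) U g‖ ^ 2
      ≤ ∑ c ∈ T, 5200 * (1 + 4 * ∑ j, tel (x c j)) :=
    sum_le_sum fun c hc => (h c (hT1 hc)).trans (by linarith [hW c])
  have step3 : ∑ c ∈ T, ∑ j, tel (x c j) ≤ Module.finrank ℝ U := by
    refine (sum_le_sum_of_subset_of_nonneg hT1 fun c _ _ => sum_nonneg fun j _ => t0 c j).trans ?_
    rw [sum_comm]
    calc ∑ j, ∑ c ∈ range (K + 1), tel (x c j) ≤ ∑ _j : Fin (Module.finrank ℝ U), (1 : ℝ) := by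
          refine sum_le_sum fun j _ => ?_
          have := tel_sum (x := z j / m) (div_pos (hm.trans_le (z1 j)) hm).le (K + 1)
          simpa only [x, div_div] using this
      _ = _ := by simp
  rw [← mul_sum, sum_add_distrib, ← mul_sum, sum_const, nsmul_eq_mul, mul_one] at step2
  rw [hP]
  linarith

end Vale.Agent.P262
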