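import Vale.Agent.P262.Main
import Vale.Agent.P262.Defs

/-! Transference to rearrangements and the lower bounds. -/

namespace Vale.Agent.P262

open Finset
open scoped ENNReal

variable {N d : ℕ}

def Bd (w : Fin N → H d) (β : ℝ) : Prop := ∀ k : ℕ, ‖∑ i : Fin N with i.val < k, w i‖ ≤ β

lemma signing_fin (v : Fin N → H d) (hv : ∀ i, ‖v i‖ ≤ 1) :
    ∃ ε : Fin N → ℝ, (∀ i, ε i = 1 ∨ ε i = -1) ∧ Bd (fun i => ε i • v i) (10 ^ 11 * √d) := by
  obtain ⟨ε, h1, h2⟩ := signing N (fun t => if h : t < N then v ⟨t, h⟩ else 0) (by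
    intro t; split_ifs
    · exact hv _
    · simp)
  refine ⟨fun i => ε i, fun i => h1 i, fun k => ?_⟩
  have e1 : ∑ i : Fin N with i.val < k, ε i • v i
      = ∑ i ∈ range (min k N), ε i • (if h : i < N then v ⟨i, h⟩ else 0) := by
    refine sum_bij (fun i _ => i.val) (fun i hi => ?_) (fun i _ j _ h => Fin.ext h)
      (fun j hj => ?_) (fun i _ => by simp)
    · simpa using hi
    · rw [mem_range, lt_min_iff] at hj
      exact ⟨⟨j, hj.2⟩, by simpa using hj.1, rfl⟩
  rw [e1]
  refine (pow_le_pow_iff_left₀ (norm_nonneg _) (by positivity) two_ne_zero).1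
    ((h2 _ (min_le_right _ _)).trans ?_)
  rw [mul_pow, Real.sq_sqrt (Nat.cast_nonneg _)]
  have : (0 : ℝ) ≤ d := Nat.cast_nonneg _
  nlinarith

lemma half_step (w : Fin N → H d) (h0 : ∑ i, w i = 0) {β σ : ℝ} (hβ : Bd w β)
    (ε : Fin N → ℝ) (hε : ∀ i, ε i = 1 ∨ ε i = -1) (hσ : Bd (fun i => ε i • w i) σ) :
    ∃ τ : Equiv.Perm (Fin N), Bd (fun i => w (τ i)) ((β + σ) / 2) := by
  classical
  let key : Fin N → ℕ := fun i => if ε i = 1 then i.val else 2 * N - i.val
  have kinj : Function.Injective key := by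
    intro i j h
    have := i.2
    have := j.2
    simp only [key] at h
    refine Fin.ext ?_
    split_ifs at h <;> omega
  have hmono : StrictMono (key ∘ Tuple.sort key) :=
    (Tuple.monotone_sort key).strictMono_of_injective (kinj.comp (Tuple.sort key).injective)
  have β0 : 0 ≤ β := (norm_nonneg _).trans (hβ 0)
  have σ0 : 0 ≤ σ := (norm_nonneg _).trans (hσ 0)
  have bound : ∀ (m : ℕ) (s : ℝ), |s| = 1 → ‖(1 / 2 : ℝ) • (∑ i : Fin N with i.val < m, w i
      + s • ∑ i : Fin N with i.val < m, ε i • w i)‖ ≤ (β + σ) / 2 := by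
    intro m s hs
    rw [norm_smul]
    have := norm_add_le (∑ i : Fin N with i.val < m, w i)
      (s • ∑ i : Fin N with i.val < m, ε i • w i)
    rw [norm_smul, Real.norm_eq_abs, hs] at this
    have := hβ m
    have := hσ m
    norm_num
    linarith
  refine ⟨Tuple.sort key, fun k => ?_⟩
  by_cases hk : k < N
  · set θ := key (Tuple.sort key ⟨k, hk⟩) with hθ
    have e1 : ∑ i : Fin N with i.val < k, w (Tuple.sort key i)
        = ∑ i : Fin N with key i < θ, w i := by
      refine sum_equiv (Tuple.sort key) (fun i => ?_) fun _ _ => rfl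
      simp only [mem_filter, mem_univ, true_and]
      exact (hmono.lt_iff_lt (a := i) (b := ⟨k, hk⟩)).symm
    rw [e1]
    rcases le_or_gt θ N with h | h
    · refine le_trans (le_of_eq ?_) (bound θ 1 (by simp))
      congr 1
      rw [one_smul, ← sum_add_distrib, smul_sum, sum_filter, sum_filter]
      refine sum_congr rfl fun i _ => ?_
      have := i.2
      rcases hε i with h1 | h1
      · simp only [key, h1, if_true]
        split_ifs
        · module
        · rfl
      · have h2 : ε i ≠ 1 := by rw [h1]; norm_num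
        simp only [key, h2, if_false]
        rw [if_neg (by omega), h1]
        split_ifs
        · module
        · rfl
    · refine le_trans (le_of_eq ?_) (bound (2 * N + 1 - θ) (-1) (by simp))
      rw [← norm_neg]
      congr 1
      have e2 := sum_filter_add_sum_filter_not univ (fun i => key i < θ) w
      rw [h0] at e2
      rw [← eq_neg_of_add_eq_zero_right e2, smul_sum, ← sum_add_distrib, smul_sum, sum_filter,
        sum_filter]
      refine sum_congr rfl fun i _ => ?_
      have := i.2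
      rcases hε i with h1 | h1
      · simp only [key, h1, if_true]
        rw [if_neg (by omega)]
        split_ifs
        · module
        · rfl
      · have h2 : ε i ≠ 1 := by rw [h1]; norm_num
        simp only [key, h2, if_false]
        rw [h1]
        split_ifs
        · omega
        · rfl
        · module
        · omega
  · rw [filter_true_of_mem fun i _ => by have := i.2; omega,
      Equiv.sum_comp (Tuple.sort key) w, h0, norm_zero]
    positivity

lemma steinitz_fin (v : Fin N → H d) (hv : ∀ i, ‖v i‖ ≤ 1) (h0 : ∑ i, v i = 0) :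
    ∃ π : Equiv.Perm (Fin N), Bd (fun i => v (π i)) (10 ^ 11 * √d) := by
  let f : Equiv.Perm (Fin N) → ℝ := fun π =>
    (range (N + 1)).sup' nonempty_range_add_one fun k => ‖∑ i : Fin N with i.val < k, v (π i)‖
  have f1 : ∀ π, Bd (fun i => v (π i)) (f π) := by
    intro π k
    have e1 : (univ.filter fun i : Fin N => i.val < k)
        = univ.filter fun i : Fin N => i.val < min k N := by
      ext i; simp
    rw [e1]
    exact le_sup' (fun k => ‖∑ i : Fin N with i.val < k, v (π i)‖)
      (mem_range.2 (Nat.lt_succ_of_le (min_le_right _ _)))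
  obtain ⟨π, hπ⟩ := Finite.exists_min f
  obtain ⟨ε, h1, h2⟩ := signing_fin (fun i => v (π i)) fun i => hv _
  obtain ⟨τ, hτ⟩ := half_step (fun i => v (π i)) (by rw [Equiv.sum_comp π v, h0]) (f1 π) ε h1 h2
  have h3 : f (τ.trans π) ≤ (f π + 10 ^ 11 * √d) / 2 := sup'_le _ _ fun k _ => hτ k
  exact ⟨π, fun k => (f1 π k).trans (by linarith [hπ (τ.trans π)])⟩

lemma Bd.peak_le {w : Fin N → H d} {β : ℝ} (h : Bd w β) : peak w ≤ ENNReal.ofReal β := by
  refine iSup_le fun k => ?_
  rw [← ofReal_norm]
  exact ENNReal.ofReal_le_ofReal (h k)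

lemma le_peak (w : Fin N → H d) {β : ℝ} (k : ℕ) (hk : k ≤ N)
    (h : β ^ 2 ≤ ‖∑ i : Fin N with i.val < k, w i‖ ^ 2) : ENNReal.ofReal β ≤ peak w := by
  refine le_iSup_of_le ⟨k, Nat.lt_succ_of_le hk⟩ ?_
  rw [← ofReal_norm]
  exact ENNReal.ofReal_le_ofReal (le_of_sq_le_sq h (norm_nonneg _))

lemma sigma_lower (hd : 1 ≤ d) : ENNReal.ofReal √d ≤ sigma d := by
  refine le_iSup₂_of_le d hd (le_iSup₂_of_le e (fun i => (norm_e i).le) ?_)
  refine le_iInf₂ fun ε hε => le_peak _ d le_rfl ?_
  rw [filter_true_of_mem fun i _ => i.2, Real.sq_sqrt (Nat.cast_nonneg _),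
    norm_comb e (fun _ => 1) ε (fun i j => by rw [inner_e, e_apply])]
  have : ∀ j, ε j ^ 2 * 1 = 1 := fun j => by rcases hε j with h | h <;> rw [h] <;> norm_num
  simp [this]

lemma steinitz_lower (hd : 1 ≤ d) : ENNReal.ofReal (1 / 3 * √d) ≤ steinitz d := by
  have d0 : (0 : ℝ) < d := by exact_mod_cast hd
  rcases eq_or_lt_of_le hd with h | h
  · subst h
    refine le_iSup₂_of_le 2 ![e 0, -e 0] (le_iSup₂_of_le ?_ (by simp) ?_)
    · intro i; fin_cases i <;> simp [norm_e]
    refine le_iInf fun π => le_peak _ 1 (by norm_num) ?_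
    have e1 : (univ.filter fun i : Fin 2 => i.val < 1) = {0} := by decide
    rw [e1, sum_singleton]
    generalize π 0 = j
    fin_cases j <;> simp [norm_e] <;> norm_num
  let u : H d := WithLp.toLp 2 fun _ => 1 / (d : ℝ)
  have key : ∀ (A : Finset (Fin d)),
      ‖∑ i ∈ A, (e i - u)‖ ^ 2 = A.card - (A.card : ℝ) ^ 2 / d := by
    intro A
    rw [EuclideanSpace.real_norm_sq_eq]
    have : ∀ l, (∑ i ∈ A, (e i - u)) l ^ 2
        = (if l ∈ A then 1 - 2 * (A.card / d : ℝ) else 0) + (A.card / d : ℝ) ^ 2 := by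
      intro l
      simp only [WithLp.ofLp_sum, Finset.sum_apply, PiLp.sub_apply, e_apply, u, sum_sub_distrib,
        sum_ite_eq, sum_const, WithLp.ofLp_smul, Pi.smul_apply, nsmul_eq_mul]
      split_ifs <;> ring
    rw [sum_congr rfl fun l _ => this l, sum_add_distrib, sum_ite_mem, univ_inter]
    simp only [sum_const, card_univ, Fintype.card_fin, nsmul_eq_mul]
    field_simp; ring
  refine le_iSup₂_of_le d (fun i => e i - u) (le_iSup₂_of_le (fun i => ?_) ?_ ?_)
  · have := key {i}
    rw [sum_singleton, card_singleton] at this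
    refine le_of_sq_le_sq ?_ zero_le_one
    rw [this]
    have : 0 ≤ ((1 : ℕ) : ℝ) ^ 2 / d := by positivity
    push_cast at *
    linarith
  · have := key univ
    rw [card_univ, Fintype.card_fin, sq (d : ℝ), mul_div_cancel_right₀ _ d0.ne', sub_self] at this
    simpa using this
  refine le_iInf fun π => le_peak _ (d / 2) (Nat.div_le_self _ _) ?_
  have e1 := key ((univ.filter fun i : Fin d => i.val < d / 2).map π.toEmbedding)
  rw [sum_map, card_map, Fin.card_filter_val_lt, min_eq_right (Nat.div_le_self _ _)] at e1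
  simp only [Equiv.coe_toEmbedding] at e1
  rw [e1, mul_pow, Real.sq_sqrt d0.le]
  have k1 : (2 : ℝ) * (d / 2 : ℕ) ≤ d := by exact_mod_cast Nat.mul_div_le d 2
  have k2 : (d : ℝ) ≤ 3 * (d / 2 : ℕ) := by exact_mod_cast (by omega : d ≤ 3 * (d / 2))
  generalize ((d / 2 : ℕ) : ℝ) = k at *
  have : k ^ 2 / d ≤ k / 2 := by
    rw [div_le_iff₀ d0]; nlinarith
  linarith

end Vale.Agent.P262
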